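import Vale.Agent.P011.D4.TG7

/-!
Block D4W, the short subgroup: quaternions of trace `t` and norm `s`.
-/

open NumberField IsDedekindDomain

namespace Vale.Agent.P011.D4W.H359

open Vale.Agent.P011.Arith Vale.Agent.P011.MPQ Vale.Agent.P011.D4 Vale.Agent.P011.D4.TG

section alg

variable {F : Type} [Field F] {A B : Fˣ}

theorem nrd_zero' : nrd (0 : Qt A B) = 0 := by simp [nrd]

theorem star_pure {p : Qt A B} (hp : p.re = 0) : star p = -p := by
  ext <;> simp [hp]

theorem pure_sq {p : Qt A B} (hp : p.re = 0) : p * p = (-nrd p) • (1 : Qt A B) := by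
  have h2 := mul_star_self' p
  rw [star_pure hp, mul_neg] at h2
  rw [neg_smul, ← h2, neg_neg]

theorem re_mul_comm (x y : Qt A B) : (x * y).re = (y * x).re := by
  simp only [QuaternionAlgebra.re_mul]
  ring

/-- Conjugates of pure quaternions. -/
theorem conj_pure (g : (Qt A B)ˣ) {p : Qt A B} (hp : p.re = 0) {D : F}
    (h : p * p = D • (1 : Qt A B)) :
    ((g : Qt A B) * p * ((g⁻¹ : (Qt A B)ˣ) : Qt A B)).re = 0 ∧
      ((g : Qt A B) * p * ((g⁻¹ : (Qt A B)ˣ) : Qt A B)) *
        ((g : Qt A B) * p * ((g⁻¹ : (Qt A B)ˣ) : Qt A B)) = D • (1 : Qt A B) := by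
  constructor
  · rw [re_mul_comm, ← mul_assoc, Units.inv_mul, one_mul, hp]
  · calc (g : Qt A B) * p * ((g⁻¹ : (Qt A B)ˣ) : Qt A B) *
          ((g : Qt A B) * p * ((g⁻¹ : (Qt A B)ˣ) : Qt A B))
        = (g : Qt A B) * p * (((g⁻¹ : (Qt A B)ˣ) : Qt A B) * (g : Qt A B)) * p *
            ((g⁻¹ : (Qt A B)ˣ) : Qt A B) := by simp only [mul_assoc]
      _ = (g : Qt A B) * (p * p) * ((g⁻¹ : (Qt A B)ˣ) : Qt A B) := by
          rw [Units.inv_mul, mul_one, mul_assoc (g : Qt A B) p p]
      _ = _ := by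
          rw [h, mul_smul_comm, mul_one, smul_mul_assoc, Units.mul_inv]

variable [CharZero F]

omit [CharZero F] in
theorem smul_one_inj {x y : F} (h : x • (1 : Qt A B) = y • (1 : Qt A B)) : x = y := by
  have h1 := congrArg QuaternionAlgebra.re h
  simpa using h1

/-- The pure part of `ξ`, `Trd ξ = t`. -/
theorem pure_part {ξ : Qt A B} {t : F} (h : ξ.re = t / 2) :
    ((2 : F) • ξ - t • (1 : Qt A B)).re = 0 ∧
      ((2 : F) • ξ - t • (1 : Qt A B)) * ((2 : F) • ξ - t • (1 : Qt A B)) =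
        (t ^ 2 - 4 * nrd ξ) • (1 : Qt A B) := by
  have h0 : ((2 : F) • ξ - t • (1 : Qt A B)).re = 0 := by
    simp [h]
    ring
  refine ⟨h0, ?_⟩
  rw [pure_sq h0]
  congr 1
  simp only [nrd, QuaternionAlgebra.re_sub, QuaternionAlgebra.re_smul, QuaternionAlgebra.re_one,
    QuaternionAlgebra.imI_sub, QuaternionAlgebra.imI_smul, QuaternionAlgebra.imI_one,
    QuaternionAlgebra.imJ_sub, QuaternionAlgebra.imJ_smul, QuaternionAlgebra.imJ_one,
    QuaternionAlgebra.imK_sub, QuaternionAlgebra.imK_smul, QuaternionAlgebra.imK_one, smul_eq_mul,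
    h]
  ring

theorem nrd_half {p : Qt A B} (hp : p.re = 0) {D t : F} (h : p * p = D • (1 : Qt A B)) :
    nrd ((1 / 2 : F) • (t • (1 : Qt A B) + p)) = (t ^ 2 - D) / 4 := by
  have h1 : -nrd p = D := smul_one_inj (by rw [← pure_sq hp, h])
  rw [← h1]
  simp only [nrd, QuaternionAlgebra.re_add, QuaternionAlgebra.re_smul, QuaternionAlgebra.re_one,
    QuaternionAlgebra.imI_add, QuaternionAlgebra.imI_smul, QuaternionAlgebra.imI_one,
    QuaternionAlgebra.imJ_add, QuaternionAlgebra.imJ_smul, QuaternionAlgebra.imJ_one,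
    QuaternionAlgebra.imK_add, QuaternionAlgebra.imK_smul, QuaternionAlgebra.imK_one, smul_eq_mul,
    hp]
  ring

/-- The quaternion `ξ'`, and `ξ = x ξ'`: both have trace `t` and norm `t² / c - N`. -/
theorem exists_xi {x : Qt A B} (hx : nrd x = 1) {c : F} (hc : c = 2 * (x.re + 1)) (hc0 : c ≠ 0)
    {η : Qt A B} (hη : η.re = 0) (ha : η * (x - x.re • 1) = -((x - x.re • 1) * η)) {N : F}
    (hN : η * η = N • (1 : Qt A B)) (t : F) :
    ∃ ξ : Qt A B, ξ.re = t / 2 ∧ (x * ξ).re = t / 2 ∧ nrd ξ = t ^ 2 / c - N := by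
  obtain ⟨x0, hx0⟩ : ∃ x0 : Qt A B, x0 = x - x.re • 1 := ⟨_, rfl⟩
  rw [← hx0] at ha
  have hr0 : x0.re = 0 := by rw [hx0]; simp
  have hxx : x = x.re • 1 + x0 := by rw [hx0]; abel
  have hn0 : nrd x0 = 1 - x.re ^ 2 := by
    rw [← hx, hx0]
    simp only [nrd, QuaternionAlgebra.re_sub, QuaternionAlgebra.re_smul, QuaternionAlgebra.re_one,
      QuaternionAlgebra.imI_sub, QuaternionAlgebra.imI_smul, QuaternionAlgebra.imI_one,
      QuaternionAlgebra.imJ_sub, QuaternionAlgebra.imJ_smul, QuaternionAlgebra.imJ_one,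
      QuaternionAlgebra.imK_sub, QuaternionAlgebra.imK_smul, QuaternionAlgebra.imK_one, smul_eq_mul]
    ring
  have hnη : nrd η = -N := by
    have := smul_one_inj ((pure_sq hη).symm.trans hN)
    linear_combination -this
  have hcr : (x0 * η).re = 0 := by
    have h1 := congrArg QuaternionAlgebra.re ha
    rw [QuaternionAlgebra.re_neg, re_mul_comm] at h1
    have h2 : 2 * (x0 * η).re = 0 := by linear_combination h1
    exact (mul_eq_zero.mp h2).resolve_left two_ne_zero
  obtain ⟨y, hy⟩ : ∃ y : Qt A B, y = (-(t / c)) • x0 + η := ⟨_, rfl⟩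
  have hyr : y.re = 0 := by
    rw [hy, QuaternionAlgebra.re_add, QuaternionAlgebra.re_smul, hr0, hη, smul_zero, add_zero]
  have hyn : nrd y = (t / c) ^ 2 * (1 - x.re ^ 2) - N := by
    have h1 : y * y = (-((t / c) ^ 2 * (1 - x.re ^ 2) - N)) • (1 : Qt A B) := by
      have e : y * y = (t / c) ^ 2 • (x0 * x0) + η * η := by
        rw [hy]
        simp only [add_mul, mul_add, smul_mul_assoc, mul_smul_comm, ha]
        module
      rw [e, pure_sq hr0, hN, hn0]
      module
    have := smul_one_inj ((pure_sq hyr).symm.trans h1)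
    linear_combination -this
  refine ⟨(t / 2) • 1 + y, ?_, ?_, ?_⟩
  · rw [QuaternionAlgebra.re_add, QuaternionAlgebra.re_smul, hyr]
    simp
  · have e : x * ((t / 2) • 1 + y) = (t / 2) • x + x.re • y + (-(t / c)) • (x0 * x0) + x0 * η := by
      rw [mul_add, mul_smul_comm, mul_one]
      have : x * y = x.re • y + (-(t / c)) • (x0 * x0) + x0 * η := by
        conv_lhs => rw [hxx]
        rw [add_mul, smul_mul_assoc, one_mul, hy]
        simp only [mul_add, mul_smul_comm]
        abel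
      rw [this]
      abel
    rw [e, pure_sq hr0, hn0]
    simp only [QuaternionAlgebra.re_add, QuaternionAlgebra.re_smul, hyr, hcr, smul_eq_mul,
      QuaternionAlgebra.re_one, mul_zero, add_zero, mul_one]
    have h2 : x.re + 1 ≠ 0 := by
      intro h
      apply hc0
      rw [hc, h, mul_zero]
    rw [hc]
    field_simp
    ring
  · have e : nrd ((t / 2) • 1 + y) = (t / 2) ^ 2 + nrd y := by
      simp only [nrd, QuaternionAlgebra.re_add, QuaternionAlgebra.re_smul,
        QuaternionAlgebra.re_one, QuaternionAlgebra.imI_add, QuaternionAlgebra.imI_smul,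
        QuaternionAlgebra.imI_one, QuaternionAlgebra.imJ_add, QuaternionAlgebra.imJ_smul,
        QuaternionAlgebra.imJ_one, QuaternionAlgebra.imK_add, QuaternionAlgebra.imK_smul,
        QuaternionAlgebra.imK_one, smul_eq_mul, hyr]
      ring
    rw [e, hyn, hc]
    have h2 : x.re + 1 ≠ 0 := by
      intro h
      apply hc0
      rw [hc, h, mul_zero]
    field_simp
    ring

end alg

end Vale.Agent.P011.D4W.H359
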