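import Vale.Agent.P011.D4W.H359.Alg

/-!
Block D4W, the short subgroup: conjugation of pure quaternions, close at one ramified prime to a
given conjugation and trivial at the others.
-/

open NumberField IsDedekindDomain

namespace Vale.Agent.P011.D4W.H359

open Vale.Agent.P011.Arith Vale.Agent.P011.MPQ Vale.Agent.P011.D4 Vale.Agent.P011.D4.TG
  Vale.Agent.P011.Two

theorem exists_tau (X Y : Z0) (hY : Y ≠ 0) : ∃ τ : Z0, τ ≠ 0 ∧ ∀ t : Z0, t < τ → t ^ 2 * X < Y := by
  have hX1 : (0 : Z0) < max X 1 := lt_of_lt_of_le zero_lt_one (le_max_right _ _)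
  refine ⟨min 1 (Y / max X 1), ?_, fun t ht => ?_⟩
  · exact (lt_min zero_lt_one (div_pos (zero_lt_iff.mpr hY) hX1)).ne'
  · have h1 : t < 1 := ht.trans_le (min_le_left _ _)
    have h2 : t < Y / max X 1 := ht.trans_le (min_le_right _ _)
    calc t ^ 2 * X ≤ t * max X 1 := by
          refine mul_le_mul' ?_ (le_max_left _ _)
          rw [sq]
          exact mul_le_of_le_one_left' h1.le
      _ < Y := (lt_div_iff₀ hX1).mp h2

section loc

variable {F : Type} [Field F] [CharZero F] {w : Valuation F Z0} {A B : Fˣ}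

omit [CharZero F] in
theorem exists_unit (hab : Aniso A B) {g : Qt A B} (hg : g ≠ 0) :
    ∃ u : (Qt A B)ˣ, (u : Qt A B) = g := by
  have hn : nrd g ≠ 0 := fun h => hg (hab g h)
  refine ⟨⟨g, (nrd g)⁻¹ • star g, ?_, ?_⟩, rfl⟩
  · rw [mul_smul_comm, mul_star_self', smul_smul, inv_mul_cancel₀ hn, one_smul]
  · rw [smul_mul_assoc, Two.star_mul_self', smul_smul, inv_mul_cancel₀ hn, one_smul]

theorem qv_smul (hab : Aniso A B) (hw : B ∉ NF A ⊔ LS w) (c : F) (x : Qt A B) :
    qv hab hw (c • x) = w c ^ 2 * qv hab hw x := by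
  rw [qv_apply, qv_apply, Two.nrd_smul, map_mul, map_pow]

theorem qv_smul_one (hab : Aniso A B) (hw : B ∉ NF A ⊔ LS w) (c : F) :
    qv hab hw (c • (1 : Qt A B)) = w c ^ 2 := by
  rw [qv_smul, map_one, mul_one]

theorem qv_pure (hab : Aniso A B) (hw : B ∉ NF A ⊔ LS w) {p : Qt A B} {D : F}
    (h : p * p = D • (1 : Qt A B)) : qv hab hw p = w D := by
  have h1 : qv hab hw p ^ 2 = w D ^ 2 := by
    rw [sq, ← map_mul, h, qv_smul_one]
  exact (pow_left_inj₀ zero_le zero_le two_ne_zero).mp h1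

theorem qv_ne_zero (hab : Aniso A B) (hw : B ∉ NF A ⊔ LS w) {x : Qt A B} (hx : x ≠ 0) :
    qv hab hw x ≠ 0 := by
  rw [qv_apply]
  exact (Valuation.ne_zero_iff w).mpr fun h => hx (hab x h)

/-- Two pure quaternions with close squares are almost conjugate. -/
theorem conj_loc (hab : Aniso A B) (hw : B ∉ NF A ⊔ LS w) {p p0 : Qt A B} (hp : p.re = 0)
    {D D' : F} (h : p * p = D • (1 : Qt A B)) (h0 : p0 * p0 = D' • (1 : Qt A B)) (hD' : D' ≠ 0) :
    ∃ g : (Qt A B)ˣ, qv hab hw ((g : Qt A B) * p - p0 * g) * w (4 * D') ≤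
      w (D - D') ^ 2 * qv hab hw (g : Qt A B) := by
  have h40 : w (4 * D') ≠ 0 := (Valuation.ne_zero_iff w).mpr (mul_ne_zero (by norm_num) hD')
  have h2 : qv hab hw ((2 : F) • p0) = w (4 * D') := by
    rw [qv_smul, qv_pure hab hw h0, map_mul, ← map_pow]
    norm_num
  have h3 : (p0 + p) + (p0 - p) = (2 : F) • p0 := by
    module
  have h4 : w (4 * D') ≤ max (qv hab hw (p0 + p)) (qv hab hw (p0 - p)) := by
    rw [← h2, ← h3]
    exact Valuation.map_add _ _ _
  rcases le_max_iff.mp h4 with h5 | h5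
  · have hne : p0 + p ≠ 0 := by
      intro h6
      rw [h6, map_zero] at h5
      exact h40 (le_zero_iff.mp h5)
    obtain ⟨g, hg⟩ := exists_unit hab hne
    refine ⟨g, ?_⟩
    have e : (g : Qt A B) * p - p0 * g = (D - D') • (1 : Qt A B) := by
      rw [hg, add_mul, mul_add, h, h0]
      module
    rw [e, qv_smul_one, hg]
    exact mul_le_mul_right h5 _
  · obtain ⟨j, hj0, hj1, hji⟩ := exists_anti hp
    have hne : (p0 - p) * j ≠ 0 := by
      intro h6
      have h7 := congrArg (qv hab hw) h6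
      rw [map_mul, map_zero] at h7
      rcases mul_eq_zero.mp h7 with h8 | h8
      · rw [h8] at h5
        exact h40 (le_zero_iff.mp h5)
      · exact qv_ne_zero hab hw hj1 h8
    obtain ⟨g, hg⟩ := exists_unit hab hne
    refine ⟨g, ?_⟩
    have e : (g : Qt A B) * p - p0 * g = (D - D') • j := by
      rw [hg, mul_assoc, hji, mul_neg, ← mul_assoc, ← mul_assoc, sub_mul, mul_sub, h, h0]
      simp only [sub_mul, mul_assoc, smul_mul_assoc, one_mul]
      module
    rw [e, qv_smul, hg, map_mul (qv hab hw), mul_assoc]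
    refine mul_le_mul_right ?_ _
    rw [mul_comm (qv hab hw (p0 - p))]
    exact mul_le_mul_right h5 _

end loc

section nf

variable {F : Type} [Field F] [NumberField F] {A B : Fˣ}

theorem exists_val_eq (w : HeightOneSpectrum (𝓞 F)) {τ : Z0} (hτ : τ ≠ 0) :
    ∃ t : F, t ≠ 0 ∧ w.valuation F t = τ := by
  obtain ⟨π, hπ⟩ := w.valuation_exists_uniformizer F
  have hπ0 : π ≠ 0 := by
    rintro rfl
    rw [map_zero] at hπ
    exact WithZero.exp_ne_zero hπ.symm
  refine ⟨π ^ (-WithZero.log τ), zpow_ne_zero _ hπ0, ?_⟩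
  rw [map_zpow₀, hπ, ← WithZero.exp_zsmul]
  have e : (-WithZero.log τ) • (-1 : ℤ) = WithZero.log τ := by
    rw [smul_eq_mul]
    ring
  rw [e, WithZero.exp_log hτ]

/-- Weak approximation with bounds in the value groups. -/
theorem approx_val {T : Set (HeightOneSpectrum (𝓞 F))} (hT : T.Finite)
    (z : HeightOneSpectrum (𝓞 F) → F) (τ : HeightOneSpectrum (𝓞 F) → Z0) (hτ : ∀ w, τ w ≠ 0) :
    ∃ x : F, ∀ w ∈ T, w.valuation F (x - z w) < τ w := by
  choose t ht0 ht using fun w => exists_val_eq w (hτ w)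
  obtain ⟨x, hx⟩ := approx (Sum.inl '' T : Set (Pl F)) (hT.image _) (Sum.elim z fun _ => 0)
    (Sum.elim (fun w => plAbv (Sum.inl w : Pl F) (t w)) fun _ => 1) (by
      rintro (w | φ)
      · exact (plAbv (Sum.inl w : Pl F)).pos (ht0 w)
      · exact one_pos)
  refine ⟨x, fun w hw => ?_⟩
  have h1 := hx (Sum.inl w) ⟨w, hw, rfl⟩
  rw [← ht w]
  exact (plAbv_lt w _ _).mp h1

/-- A conjugate of `p`, close to `p0` at `w` and to `p` at the other ramified primes. -/
theorem exists_conj_near (hab : Aniso A B) {w : HeightOneSpectrum (𝓞 F)} (hw : Ram A B w)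
    {p p0 : Qt A B} (hp : p.re = 0) {D D' : F} (h : p * p = D • (1 : Qt A B))
    (h0 : p0 * p0 = D' • (1 : Qt A B)) (hD' : D' ≠ 0) {μ : Z0} (hμ : μ ≠ 0)
    (hμ' : w.valuation F (D - D') ^ 2 ≤ μ * w.valuation F (4 * D'))
    (ε : HeightOneSpectrum (𝓞 F) → Z0) (hε : ∀ w, ε w ≠ 0) :
    ∃ p1 : Qt A B, p1.re = 0 ∧ p1 * p1 = D • (1 : Qt A B) ∧
      w.valuation F (nrd (p1 - p0)) ≤ μ ∧
      ∀ w', Ram A B w' → w' ≠ w → w'.valuation F (nrd (p1 - p)) ≤ ε w' := by
  classical
  change B ∉ NF A ⊔ LS (w.valuation F) at hw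
  have h40 : w.valuation F (4 * D') ≠ 0 :=
    (Valuation.ne_zero_iff _).mpr (mul_ne_zero (by norm_num) hD')
  obtain ⟨g, hg⟩ := conj_loc hab hw hp h h0 hD'
  obtain ⟨b0, hb0⟩ : ∃ b0 : Qt A B, b0 = (g : Qt A B) - 1 := ⟨_, rfl⟩
  have hg0 : (g : Qt A B) ≠ 0 := by
    intro h1
    have h2 := g.mul_inv
    rw [h1, zero_mul] at h2
    exact zero_ne_one h2
  have hVg : qv hab hw (g : Qt A B) ≠ 0 := qv_ne_zero hab hw hg0
  -- the bounds
  obtain ⟨τ1, hτ1, h1⟩ := exists_tau (w.valuation F (nrd b0)) (qv hab hw (g : Qt A B)) hVg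
  obtain ⟨τ2, hτ2, h2⟩ := exists_tau (w.valuation F (nrd b0) *
    max (w.valuation F D) (w.valuation F D')) (μ * qv hab hw (g : Qt A B)) (mul_ne_zero hμ hVg)
  choose τ3 hτ3 h3 using fun w' : HeightOneSpectrum (𝓞 F) =>
    exists_tau (w'.valuation F (nrd b0)) 1 one_ne_zero
  choose τ4 hτ4 h4 using fun w' : HeightOneSpectrum (𝓞 F) =>
    exists_tau (w'.valuation F (nrd b0) * w'.valuation F D) (ε w') (hε w')
  obtain ⟨lam, hlam⟩ := approx_val (ram_finite A B) (fun w' => if w' = w then 1 else 0)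
    (fun w' => if w' = w then min τ1 τ2 else min (τ3 w') (τ4 w')) (fun w' => by
      by_cases hww : w' = w
      · rw [if_pos hww]
        exact (lt_min (zero_lt_iff.mpr hτ1) (zero_lt_iff.mpr hτ2)).ne'
      · rw [if_neg hww]
        exact (lt_min (zero_lt_iff.mpr (hτ3 w')) (zero_lt_iff.mpr (hτ4 w'))).ne')
  have hlw : w.valuation F (lam - 1) < min τ1 τ2 := by
    have h5 := hlam w hw
    simpa using h5
  have hlw' : ∀ w', Ram A B w' → w' ≠ w → w'.valuation F lam < min (τ3 w') (τ4 w') := by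
    intro w' hr hne
    have h5 := hlam w' hr
    simpa [hne] using h5
  obtain ⟨hh, hhh⟩ : ∃ hh : Qt A B, hh = 1 + lam • b0 := ⟨_, rfl⟩
  have e1 : hh - g = (lam - 1) • b0 := by
    rw [hhh, hb0]
    module
  have hV1 : qv hab hw (hh - g) < qv hab hw (g : Qt A B) := by
    rw [e1, qv_smul]
    exact h1 _ (hlw.trans_le (min_le_left _ _))
  have hVh : qv hab hw hh = qv hab hw (g : Qt A B) := by
    have e : hh = g + (hh - g) := by abel
    rw [e]
    exact Valuation.map_add_eq_of_lt_left _ hV1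
  have hhne : hh ≠ 0 := by
    intro h5
    rw [h5, map_zero] at hVh
    exact hVg hVh.symm
  obtain ⟨u, hu⟩ := exists_unit hab hhne
  have huinv : ∀ {w' : HeightOneSpectrum (𝓞 F)} (hw' : B ∉ NF A ⊔ LS (w'.valuation F)),
      qv hab hw' ((u⁻¹ : (Qt A B)ˣ) : Qt A B) * qv hab hw' hh = 1 := by
    intro w' hw'
    rw [← map_mul, ← hu, Units.inv_mul, map_one]
  obtain ⟨h6, h7⟩ := conj_pure u hp h
  refine ⟨_, h6, h7, ?_, fun w' hr hne => ?_⟩
  · -- at the prime `w`
    have e2 : (u : Qt A B) * p * ((u⁻¹ : (Qt A B)ˣ) : Qt A B) - p0 =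
        (hh * p - p0 * hh) * ((u⁻¹ : (Qt A B)ˣ) : Qt A B) := by
      rw [sub_mul, ← hu, mul_assoc p0, Units.mul_inv, mul_one]
    have e3 : hh * p - p0 * hh = ((g : Qt A B) * p - p0 * g) + ((hh - g) * p - p0 * (hh - g)) := by
      rw [sub_mul, mul_sub]
      abel
    have h8 : qv hab hw ((g : Qt A B) * p - p0 * g) ≤ μ * qv hab hw (g : Qt A B) := by
      have h9 : qv hab hw ((g : Qt A B) * p - p0 * g) * w.valuation F (4 * D') ≤
          μ * qv hab hw (g : Qt A B) * w.valuation F (4 * D') := by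
        refine hg.trans ?_
        rw [mul_right_comm]
        exact mul_le_mul_left hμ' _
      exact (mul_le_mul_iff_left₀ (zero_lt_iff.mpr h40)).mp h9
    have h9 : qv hab hw ((hh - g) * p - p0 * (hh - g)) ≤ μ * qv hab hw (g : Qt A B) := by
      have h11 := (h2 _ (hlw.trans_le (min_le_right _ _))).le
      refine (Valuation.map_sub _ _ _).trans ((max_le ?_ ?_).trans h11)
      · rw [map_mul, e1, qv_smul, qv_pure hab hw h, qv_apply, mul_assoc]
        exact mul_le_mul_right (mul_le_mul_right (le_max_left _ _) _) _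
      · rw [map_mul, e1, qv_smul, qv_pure hab hw h0, qv_apply, mul_comm, mul_assoc]
        exact mul_le_mul_right (mul_le_mul_right (le_max_right _ _) _) _
    have h10 : qv hab hw (hh * p - p0 * hh) ≤ μ * qv hab hw hh := by
      rw [e3, hVh]
      exact Valuation.map_add_le _ h8 h9
    change qv hab hw _ ≤ μ
    rw [e2, map_mul]
    calc _ ≤ μ * qv hab hw hh * qv hab hw ((u⁻¹ : (Qt A B)ˣ) : Qt A B) :=
          mul_le_mul_left h10 _
      _ = μ := by rw [mul_assoc, mul_comm (qv hab hw hh), huinv hw, mul_one]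
  · have hl := hlw' w' hr hne
    change B ∉ NF A ⊔ LS (w'.valuation F) at hr
    have e4 : hh - 1 = lam • b0 := by
      rw [hhh]
      abel
    have hV1' : qv hab hr (hh - 1) < 1 := by
      rw [e4, qv_smul]
      exact h3 w' _ (hl.trans_le (min_le_left _ _))
    have hVh' : qv hab hr hh = 1 := by
      have e : hh = 1 + (hh - 1) := by abel
      rw [e]
      exact Valuation.map_one_add_of_lt _ hV1'
    have e2 : (u : Qt A B) * p * ((u⁻¹ : (Qt A B)ˣ) : Qt A B) - p =
        ((hh - 1) * p - p * (hh - 1)) * ((u⁻¹ : (Qt A B)ˣ) : Qt A B) := by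
      have e5 : (hh - 1) * p - p * (hh - 1) = hh * p - p * hh := by
        rw [sub_mul, mul_sub, one_mul, mul_one]
        abel
      rw [e5, sub_mul, ← hu, mul_assoc p, Units.mul_inv, mul_one]
    have hi : qv hab hr ((u⁻¹ : (Qt A B)ˣ) : Qt A B) = 1 := by
      have := huinv hr
      rwa [hVh', mul_one] at this
    change qv hab hr _ ≤ ε w'
    rw [e2, map_mul, hi, mul_one]
    refine (Valuation.map_sub _ _ _).trans ?_
    rw [map_mul, map_mul, e4, qv_smul, qv_pure hab hr h, mul_comm (w'.valuation F D), max_self]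
    have := h4 w' _ (hl.trans_le (min_le_right _ _))
    rw [← mul_assoc] at this
    exact this.le

end nf

end Vale.Agent.P011.D4W.H359
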