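import Vale.Agent.P011.D4Y.H64.Even

/-!
Block D4W, the short subgroup: the local choice of the trace and the norm.
-/

open NumberField IsDedekindDomain

namespace Vale.Agent.P011.D4W.H359

open Vale.Agent.P011.Arith Vale.Agent.P011.MPQ Vale.Agent.P011.D4 Vale.Agent.P011.D4X
  Vale.Agent.P011.D4Y

section plane

variable {k L : Type} [Field k] [Field L] [Algebra k L]

/-- Every element of a cubic extension is a quotient of two elements of the plane `k + k c`. -/
theorem exists_plane (h3 : Module.finrank k L = 3) {c : L} (hc : ∀ x : k, algebraMap k L x ≠ c)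
    {H : Subgroup Lˣ} (hH : H ≠ ⊤) :
    ∃ (x y : k) (m : Lˣ), (m : L) = algebraMap k L x + algebraMap k L y * c ∧ m ∉ H := by
  have hfin : Module.Finite k L := Module.finite_of_finrank_pos (by rw [h3]; norm_num)
  have hlin : ∀ x y : k, algebraMap k L x + algebraMap k L y * c = 0 → x = 0 ∧ y = 0 := by
    intro x y h
    have hy : y = 0 := by
      by_contra hy
      have hyL : algebraMap k L y ≠ 0 := (map_ne_zero _).mpr hy
      apply hc (-(x / y))
      rw [map_neg, map_div₀]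
      field_simp
      linear_combination -h
    refine ⟨?_, hy⟩
    rw [hy, map_zero, zero_mul, add_zero] at h
    exact (map_eq_zero _).mp h
  obtain ⟨z, hz⟩ : ∃ z : Lˣ, z ∉ H := by
    by_contra hcon
    push Not at hcon
    exact hH (eq_top_iff.mpr fun x _ => hcon x)
  have hdep : ¬ LinearIndependent k ![(1 : L), c, (z : L), (z : L) * c] := by
    intro h
    have h1 := h.fintype_card_le_finrank
    rw [h3, Fintype.card_fin] at h1
    omega
  rw [Fintype.not_linearIndependent_iff] at hdep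
  obtain ⟨g, hg, i, hi⟩ := hdep
  rw [Fin.sum_univ_four] at hg
  simp only [Matrix.cons_val_zero, Matrix.cons_val_one, Matrix.cons_val] at hg
  simp only [Algebra.smul_def, mul_one] at hg
  have hz0 : (z : L) ≠ 0 := z.ne_zero
  have hu0 : algebraMap k L (g 2) + algebraMap k L (g 3) * c ≠ 0 := by
    intro h
    obtain ⟨h2, h3'⟩ := hlin _ _ h
    have h4 : algebraMap k L (g 0) + algebraMap k L (g 1) * c = 0 := by
      rw [h2, h3'] at hg
      simpa using hg
    obtain ⟨h5, h6⟩ := hlin _ _ h4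
    apply hi
    fin_cases i
    · exact h5
    · exact h6
    · exact h2
    · exact h3'
  have hv : algebraMap k L (-(g 0)) + algebraMap k L (-(g 1)) * c =
      z * (algebraMap k L (g 2) + algebraMap k L (g 3) * c) := by
    rw [map_neg, map_neg]
    linear_combination -hg
  have hv0 : algebraMap k L (-(g 0)) + algebraMap k L (-(g 1)) * c ≠ 0 := by
    rw [hv]
    exact mul_ne_zero hz0 hu0
  by_cases h1 : Units.mk0 _ hu0 ∈ H
  · refine ⟨_, _, Units.mk0 _ hv0, rfl, fun h2 => hz ?_⟩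
    have e : z = Units.mk0 _ hv0 * (Units.mk0 _ hu0)⁻¹ := by
      rw [eq_mul_inv_iff_mul_eq]
      apply Units.ext
      rw [Units.val_mul, Units.val_mk0, Units.val_mk0, hv]
    rw [e]
    exact mul_mem h2 (inv_mem h1)
  · exact ⟨_, _, Units.mk0 _ hu0, rfl, h1⟩

end plane

section ts

variable {k L : Type} [Field k] [CharZero k] [Field L] [CharZero L] [Algebra k L]
  {W : Valuation L Z0} {δ C : Lˣ}

theorem four_mem : (Units.mk0 (4 : L) (by norm_num)) ∈ LS W := by
  have e : Units.mk0 (4 : L) (by norm_num) = (Units.mk0 (2 : L) two_ne_zero) ^ 2 := by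
    apply Units.ext
    rw [Units.val_pow_eq_pow_val, Units.val_mk0, Units.val_mk0]
    norm_num
  rw [e]
  exact sq_mem_LS _

/-- The choice `t = 0`. -/
theorem exists_ts0 (hC : C ∈ NF δ) {D0 : kˣ} (hD0 : up L D0 ∉ NF δ ⊔ LS W) :
    ∃ (t : k) (s : kˣ) (m : Lˣ), (D0 : k) = t ^ 2 - 4 * s ∧
      (m : L) = algebraMap k L t ^ 2 - algebraMap k L s * C ∧ m ∉ NF δ ⊔ LS W := by
  have h4 : (4 : k) ≠ 0 := by norm_num
  refine ⟨0, -(D0 * (Units.mk0 (4 : k) h4)⁻¹), up L D0 * C * (Units.mk0 (4 : L) (by norm_num))⁻¹,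
    ?_, ?_, fun h => hD0 ?_⟩
  · rw [Units.val_neg, Units.val_mul, Units.val_inv_eq_inv_val, Units.val_mk0]
    field_simp
    ring
  · rw [Units.val_mul, Units.val_mul, Units.val_neg, Units.val_mul, Units.val_inv_eq_inv_val,
      Units.val_inv_eq_inv_val, Units.val_mk0, Units.val_mk0, map_zero, map_neg, map_mul, map_inv₀,
      map_ofNat]
    change algebraMap k L (D0 : k) * _ * _ = _
    ring
  · have h1 := mul_mem h (mul_mem (Subgroup.mem_sup_right (S := NF δ) (four_mem (W := W)))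
      (Subgroup.mem_sup_left (T := LS W) (inv_mem hC)))
    have e : up L D0 * C * (Units.mk0 (4 : L) (by norm_num))⁻¹ *
        (Units.mk0 (4 : L) (by norm_num) * C⁻¹) = up L D0 := by
      group
    rwa [e] at h1

/-- The choice in general. -/
theorem exists_ts (h3 : Module.finrank k L = 3) (hc : ∀ x : k, algebraMap k L x ≠ C)
    (hC : C ∈ NF δ) (hδ : 4 * (δ : L) = C * (C - 4)) (hH : NF δ ⊔ LS W ≠ ⊤) :
    ∃ (t : k) (s D0 : kˣ) (m : Lˣ), (D0 : k) = t ^ 2 - 4 * s ∧
      (m : L) = algebraMap k L t ^ 2 - algebraMap k L s * C ∧ m ∉ NF δ ⊔ LS W := by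
  by_cases hk : ∀ y : kˣ, up L y ∈ NF δ ⊔ LS W
  swap
  · push Not at hk
    obtain ⟨D0, hD0⟩ := hk
    obtain ⟨t, s, m, h⟩ := exists_ts0 hC hD0
    exact ⟨t, s, D0, m, h⟩
  obtain ⟨x, y, m1, hm1, hm⟩ := exists_plane h3 hc hH
  have hCH : C ∈ NF δ ⊔ LS W := Subgroup.mem_sup_left hC
  have hx0 : x ≠ 0 := by
    rintro rfl
    rw [map_zero, zero_add] at hm1
    have hy0 : y ≠ 0 := by
      rintro rfl
      apply m1.ne_zero
      rw [hm1, map_zero, zero_mul]
    apply hm
    have e : m1 = up L (Units.mk0 y hy0) * C := by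
      apply Units.ext
      rw [hm1, Units.val_mul]
      rfl
    rw [e]
    exact mul_mem (hk _) hCH
  obtain ⟨X, hX⟩ : ∃ X : kˣ, (X : k) = x := ⟨Units.mk0 x hx0, rfl⟩
  have hXL : algebraMap k L x ≠ 0 := (map_ne_zero _).mpr hx0
  obtain ⟨m, hm'⟩ : ∃ m : Lˣ, m = m1 * (up L X)⁻¹ := ⟨_, rfl⟩
  have hmH : m ∉ NF δ ⊔ LS W := by
    intro h
    apply hm
    have h1 := mul_mem h (hk X)
    rwa [hm', inv_mul_cancel_right] at h1
  have hmv : (m : L) = 1 + algebraMap k L (y / x) * C := by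
    rw [hm', Units.val_mul, Units.val_inv_eq_inv_val, hm1]
    change (algebraMap k L x + algebraMap k L y * C) * (algebraMap k L (X : k))⁻¹ = _
    rw [hX, map_div₀]
    field_simp
  have hs0 : -(y / x) ≠ 0 := by
    intro h
    apply hmH
    have e : m = 1 := by
      apply Units.ext
      rw [hmv, neg_eq_zero.mp h, map_zero, zero_mul, add_zero, Units.val_one]
    rw [e]
    exact one_mem _
  have hD0 : (1 : k) ^ 2 - 4 * -(y / x) ≠ 0 := by
    intro h
    apply hmH
    refine Subgroup.mem_sup_left ?_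
    have h1 : algebraMap k L (y / x) = -1 / 4 := by
      have h2 : y / x = -1 / 4 := by linear_combination (1 / 4 : k) * h
      rw [h2, map_div₀, map_neg, map_one, map_ofNat]
    have h2 : m = -δ * C⁻¹ := by
      rw [eq_mul_inv_iff_mul_eq]
      apply Units.ext
      rw [Units.val_mul, Units.val_neg, hmv, h1]
      linear_combination (1 / 4 : L) * hδ
    rw [h2]
    refine mul_mem ⟨0, 1, ?_⟩ (inv_mem hC)
    rw [Units.val_neg]
    ring
  refine ⟨1, Units.mk0 _ hs0, Units.mk0 _ hD0, m, rfl, ?_, hmH⟩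
  rw [hmv, Units.val_mk0, map_neg, map_one]
  ring

end ts

section nf

variable {k L : Type} [Field k] [NumberField k] [Field L] [NumberField L] [Algebra k L]

/-- If another prime over `v` has even local degree, then `w` has degree one. -/
theorem deg_one_of_other (h3 : Module.finrank k L = 3) {w w2 : HeightOneSpectrum (𝓞 L)}
    {v : HeightOneSpectrum (𝓞 k)}
    (hw : w.asIdeal.comap (algebraMap (𝓞 k) (𝓞 L)) = v.asIdeal)
    (hw2 : w2.asIdeal.comap (algebraMap (𝓞 k) (𝓞 L)) = v.asIdeal) (hne : w ≠ w2)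
    (h2 : ¬ OddP w2 v) : v.asIdeal.ramificationIdx' w.asIdeal = 1 ∧
      v.asIdeal.inertiaDeg' w.asIdeal = 1 := by
  classical
  have hm := v.isMaximal
  have l1 : w.asIdeal.LiesOver v.asIdeal := ⟨hw.symm⟩
  have l2 : w2.asIdeal.LiesOver v.asIdeal := ⟨hw2.symm⟩
  have hsum := Ideal.sum_ramification_inertia (R := 𝓞 k) (𝓞 L) k L (p := v.asIdeal) v.ne_bot
  rw [h3] at hsum
  have m1 : w.asIdeal ∈ IsDedekindDomain.primesOverFinset v.asIdeal (𝓞 L) :=
    (IsDedekindDomain.mem_primesOverFinset_iff v.ne_bot _).mpr ⟨w.isPrime, l1⟩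
  have m2 : w2.asIdeal ∈ IsDedekindDomain.primesOverFinset v.asIdeal (𝓞 L) :=
    (IsDedekindDomain.mem_primesOverFinset_iff v.ne_bot _).mpr ⟨w2.isPrime, l2⟩
  have hne' : w.asIdeal ≠ w2.asIdeal := fun h => hne (HeightOneSpectrum.ext h)
  have hle : ∑ P ∈ {w.asIdeal, w2.asIdeal},
      v.asIdeal.ramificationIdx' P * v.asIdeal.inertiaDeg' P ≤ 3 := by
    rw [← hsum]
    refine Finset.sum_le_sum_of_subset ?_
    intro P hP
    rcases Finset.mem_insert.mp hP with rfl | hP
    · exact m1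
    · rw [Finset.mem_singleton.mp hP]
      exact m2
  rw [Finset.sum_pair hne'] at hle
  have e1 : v.asIdeal.ramificationIdx' w.asIdeal ≠ 0 :=
    Ideal.IsDedekindDomain.ramificationIdx'_ne_zero_of_liesOver w.asIdeal v.ne_bot
  have e2 : v.asIdeal.ramificationIdx' w2.asIdeal ≠ 0 :=
    Ideal.IsDedekindDomain.ramificationIdx'_ne_zero_of_liesOver w2.asIdeal v.ne_bot
  have f1 : v.asIdeal.inertiaDeg' w.asIdeal ≠ 0 := Ideal.inertiaDeg'_ne_zero _ _
  have f2 : v.asIdeal.inertiaDeg' w2.asIdeal ≠ 0 := Ideal.inertiaDeg'_ne_zero _ _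
  have h4 : ¬ (v.asIdeal.ramificationIdx' w2.asIdeal = 1 ∧ v.asIdeal.inertiaDeg' w2.asIdeal = 1) :=
    fun h => h2 (odd_of_one hw2 h.1 h.2)
  have h5 : 2 ≤ v.asIdeal.ramificationIdx' w2.asIdeal * v.asIdeal.inertiaDeg' w2.asIdeal := by
    rcases Nat.lt_or_ge (v.asIdeal.ramificationIdx' w2.asIdeal) 2 with h | h
    · have e3 : v.asIdeal.ramificationIdx' w2.asIdeal = 1 := by omega
      have e4 : v.asIdeal.inertiaDeg' w2.asIdeal ≠ 1 := fun h' => h4 ⟨e3, h'⟩
      rw [e3, one_mul]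
      omega
    · nlinarith [Nat.pos_of_ne_zero f2]
  have h6 : v.asIdeal.ramificationIdx' w.asIdeal * v.asIdeal.inertiaDeg' w.asIdeal ≤ 1 := by omega
  have h7 : v.asIdeal.ramificationIdx' w.asIdeal * v.asIdeal.inertiaDeg' w.asIdeal = 1 := by
    have := Nat.mul_pos (Nat.pos_of_ne_zero e1) (Nat.pos_of_ne_zero f1)
    omega
  exact ⟨Nat.dvd_one.mp (Dvd.intro _ h7), Nat.dvd_one.mp (Dvd.intro_left _ h7)⟩

/-- At a prime of degree one every local class comes from the base. -/
theorem class_of_one {w : HeightOneSpectrum (𝓞 L)} {v : HeightOneSpectrum (𝓞 k)}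
    (hw : w.asIdeal.comap (algebraMap (𝓞 k) (𝓞 L)) = v.asIdeal)
    (he : v.asIdeal.ramificationIdx' w.asIdeal = 1)
    (hf : v.asIdeal.inertiaDeg' w.asIdeal = 1) (y : Lˣ) :
    ∃ x : kˣ, y / up L x ∈ LS (w.valuation L) := by
  have : w.asIdeal.LiesOver v.asIdeal := ⟨hw.symm⟩
  have hval : ∀ x : k, w.valuation L (algebraMap k L x) = v.valuation k x := fun x => by
    rw [← HeightOneSpectrum.valuation_liesOver L v w x, he, pow_one]
  have hy0 : w.valuation L (y : L) ≠ 0 := (Valuation.ne_zero_iff _).mpr y.ne_zero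
  obtain ⟨π, hπ⟩ := v.valuation_exists_uniformizer k
  have hπ0 : π ≠ 0 := by
    rintro rfl
    rw [map_zero] at hπ
    exact WithZero.exp_ne_zero hπ.symm
  obtain ⟨t, ht0, ht⟩ : ∃ t : k, t ≠ 0 ∧ w.valuation L (algebraMap k L t) = w.valuation L (y : L) := by
    refine ⟨π ^ (-WithZero.log (w.valuation L (y : L))), zpow_ne_zero _ hπ0, ?_⟩
    rw [hval, map_zpow₀, hπ, ← WithZero.exp_zsmul]
    have e : (-WithZero.log (w.valuation L (y : L))) • (-1 : ℤ) =
        WithZero.log (w.valuation L (y : L)) := by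
      rw [smul_eq_mul]
      ring
    rw [e, WithZero.exp_log hy0]
  have htL : algebraMap k L t ≠ 0 := (map_ne_zero _).mpr ht0
  have h1 : w.valuation L ((y : L) / algebraMap k L t) = 1 := by
    rw [map_div₀, ht, div_self hy0]
  obtain ⟨n, hn⟩ : ∃ n : ℕ, WithZero.exp (-(n : ℤ)) < w.valuation L (4 : L) := by
    have h4 : w.valuation L (4 : L) ≠ 0 := (Valuation.ne_zero_iff _).mpr (by norm_num)
    refine ⟨(WithZero.log (w.valuation L (4 : L))).natAbs + 1, ?_⟩
    conv_rhs => rw [← WithZero.exp_log h4]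
    rw [WithZero.exp_lt_exp]
    omega
  obtain ⟨s, hs⟩ := dens hw he hf n h1.le
  have hs' := lt_of_le_of_lt hs hn
  have e1 : algebraMap k L (s * t) / (y : L) - 1 =
      -(((y : L) / algebraMap k L t - algebraMap k L s) / ((y : L) / algebraMap k L t)) := by
    have := y.ne_zero
    rw [map_mul]
    field_simp
    ring
  have h2 : w.valuation L (algebraMap k L (s * t) / (y : L) - 1) < w.valuation L 4 := by
    rw [e1, Valuation.map_neg, map_div₀, h1, div_one]
    exact hs'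
  have hst0 : s * t ≠ 0 := by
    intro h
    rw [h, map_zero, zero_div, zero_sub, Valuation.map_neg, map_one] at h2
    exact absurd (val_four_le (w.valuation L)) (not_le.mpr h2)
  refine ⟨Units.mk0 _ hst0, ?_⟩
  rw [← inv_div]
  refine inv_mem (LS_of_close ?_)
  rw [Units.val_div_eq_div_val]
  exact h2

/-- The local choice of the trace, the norm and the discriminant. -/
theorem loc_choice2 (h3 : Module.finrank k L = 3) {a : kˣ} {R : Set (HeightOneSpectrum (𝓞 L))}
    (ha : ∀ w ∈ R, up L a ∉ LS (w.valuation L)) {w : HeightOneSpectrum (𝓞 L)}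
    {v : HeightOneSpectrum (𝓞 k)}
    (hw : w.asIdeal.comap (algebraMap (𝓞 k) (𝓞 L)) = v.asIdeal)
    {δ C : Lˣ} (hc : ∀ x : k, algebraMap k L x ≠ C)
    (hC : C ∈ NF δ) (hδ : 4 * (δ : L) = C * (C - 4)) (hδw : δ ∉ LS (w.valuation L))
    (hD : ∀ (t : k) (s D0 : kˣ) (m : Lˣ), (D0 : k) = t ^ 2 - 4 * s →
      (m : L) = algebraMap k L t ^ 2 - algebraMap k L s * C → m ∉ NF δ ⊔ LS (w.valuation L) →
      up L D0 ∉ LS (w.valuation L)) :
    ∃ (t : k) (s D0 : kˣ) (m : Lˣ), (D0 : k) = t ^ 2 - 4 * s ∧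
      (m : L) = algebraMap k L t ^ 2 - algebraMap k L s * C ∧ m ∉ NF δ ⊔ LS (w.valuation L) ∧
      up L D0 ∉ LS (w.valuation L) ∧
      ∀ w2 ∈ R, w2.asIdeal.comap (algebraMap (𝓞 k) (𝓞 L)) = v.asIdeal →
        up L D0 ∉ LS (w2.valuation L) := by
  have hH : NF δ ⊔ LS (w.valuation L) ≠ ⊤ := NF_sup_ne_top δ (Sum.inl w) hδw
  by_cases hex : ∃ w2 ∈ R, w2.asIdeal.comap (algebraMap (𝓞 k) (𝓞 L)) = v.asIdeal ∧ w2 ≠ w ∧
      ¬ OddP w2 v
  · obtain ⟨w2, hw2R, hw2, hne, hodd⟩ := hex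
    obtain ⟨he, hf⟩ := deg_one_of_other h3 hw hw2 hne.symm hodd
    obtain ⟨y, hy⟩ : ∃ y : Lˣ, y ∉ NF δ ⊔ LS (w.valuation L) := by
      by_contra hcon
      push Not at hcon
      exact hH (eq_top_iff.mpr fun x _ => hcon x)
    obtain ⟨x, hx⟩ := class_of_one hw he hf y
    have hxH : up L x ∉ NF δ ⊔ LS (w.valuation L) := by
      intro h
      apply hy
      have h1 := mul_mem (Subgroup.mem_sup_right (S := NF δ) hx) h
      rwa [div_mul_cancel] at h1
    obtain ⟨D0, hD0, hD02⟩ : ∃ D0 : kˣ, up L D0 ∉ NF δ ⊔ LS (w.valuation L) ∧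
        up L D0 ∉ LS (w2.valuation L) := by
      by_cases h1 : up L x ∈ LS (w2.valuation L)
      · by_cases h2 : up L a ∈ NF δ ⊔ LS (w.valuation L)
        · have e : up L (a * x) = up L a * up L x := map_mul _ _ _
          refine ⟨a * x, fun h => hxH ?_, fun h => ha w2 hw2R ?_⟩
          · have h4 := mul_mem (inv_mem h2) h
            rwa [e, inv_mul_cancel_left] at h4
          · have h4 := mul_mem h (inv_mem h1)
            rwa [e, mul_inv_cancel_right] at h4
        · exact ⟨a, h2, ha w2 hw2R⟩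
      · exact ⟨x, hxH, h1⟩
    obtain ⟨t, s, m, h1, h2, h4⟩ := exists_ts0 hC hD0
    have hDw : up L D0 ∉ LS (w.valuation L) := fun h => hD0 (Subgroup.mem_sup_right h)
    refine ⟨t, s, D0, m, h1, h2, h4, hDw, fun w3 hw3R hw3 => ?_⟩
    by_cases h5 : w3 = w2
    · rw [h5]
      exact hD02
    · intro h6
      exact hD02 (LS_map hw2 (odd_of_other h3 hw3 hw2 h5 hodd _ h6))
  · push Not at hex
    obtain ⟨t, s, D0, m, h1, h2, h4⟩ := exists_ts (W := w.valuation L) h3 hc hC hδ hH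
    have hDw := hD t s D0 m h1 h2 h4
    refine ⟨t, s, D0, m, h1, h2, h4, hDw, fun w3 hw3R hw3 => ?_⟩
    by_cases h5 : w3 = w
    · rw [h5]
      exact hDw
    · intro h6
      exact hDw (LS_map hw (hex w3 hw3R hw3 h5 _ h6))

end nf

end Vale.Agent.P011.D4W.H359
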