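import Vale.Agent.P011.D4W.H359.Appr
import Vale.Agent.P011.D4W.H359.Loc

/-!
Block D4W, the short subgroup: approximation at one ramified prime by products of two quaternions
with trace and norm in the ground field.
-/

open NumberField IsDedekindDomain

namespace Vale.Agent.P011.D4W.H359

open Vale.Agent.P011.Arith Vale.Agent.P011.MPQ Vale.Agent.P011.D4 Vale.Agent.P011.D4.TG
  Vale.Agent.P011.Two Vale.Agent.P011.D4X Vale.Agent.P011.D4Y

section loc

variable {F : Type} [Field F] [CharZero F] {w : Valuation F Z0} {A B : Fˣ}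

/-- The class of an anticommuting pair at a ramified place. -/
theorem ram_pair (hw : B ∉ NF A ⊔ LS w) {i j : Qt A B} (hi : i.re = 0) (hj : j.re = 0)
    {δ n : Fˣ} (hii : i * i = (δ : F) • (1 : Qt A B)) (hjj : j * j = (n : F) • (1 : Qt A B))
    (hij : j * i = -(i * j)) : n ∉ NF δ ⊔ LS w := by
  intro h
  obtain ⟨Φ, -, hΦ⟩ := exists_equiv hi hj hii hjj hij
  apply hw
  refine split_of_equiv Φ.symm (fun x => ?_) h
  rw [← hΦ, Φ.apply_symm_apply]

theorem notMem_of_pure (hw : B ∉ NF A ⊔ LS w) {p : Qt A B} (hp : p.re = 0) {D : Fˣ}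
    (h : p * p = (D : F) • (1 : Qt A B)) : D ∉ LS w := by
  intro hD
  apply hw
  refine mem_of_pure (δ := D) (p := p.imI) (q := p.imJ) (r := p.imK) ?_ hD
  have h1 := smul_one_inj ((pure_sq hp).symm.trans h)
  rw [← h1, nrd, hp]
  ring

end loc

section nf

variable {F : Type} [Field F] [NumberField F]

theorem exists_N (w : HeightOneSpectrum (𝓞 F)) {δ n m : Fˣ} (hδ : δ ∉ LS (w.valuation F))
    (hn : n ∉ NF δ ⊔ LS (w.valuation F)) (hm : m ∉ NF δ ⊔ LS (w.valuation F)) {μ : Z0}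
    (hμ : μ ≠ 0) : ∃ f g : F, w.valuation F ((n : F) * (f ^ 2 - δ * g ^ 2) - m) < μ := by
  have h1 : m * n⁻¹ ∈ NF δ ⊔ LS (w.valuation F) := by
    rw [Subgroup.mul_mem_iff_of_index_two (local_index_two w δ hδ)]
    exact iff_of_false hm fun h => hn (by simpa using inv_mem h)
  obtain ⟨ν, hν, x, y, hxy⟩ := mem_sup_iff_exists.mp h1
  have hm0 : w.valuation F (m : F) ≠ 0 := (Valuation.ne_zero_iff _).mpr m.ne_zero
  obtain ⟨z, hz⟩ := LS_newton' hν (γ := μ / w.valuation F (m : F)) (div_ne_zero hμ hm0)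
  refine ⟨x / z, y / z, ?_⟩
  have e : (n : F) * ((x / z) ^ 2 - δ * (y / z) ^ 2) - m = m * ((ν : F) / (z : F) ^ 2 - 1) := by
    have hn0 : (n : F) ≠ 0 := n.ne_zero
    have hz0 : (z : F) ≠ 0 := z.ne_zero
    rw [Units.val_mul, Units.val_inv_eq_inv_val] at hxy
    have e1 : (x / z) ^ 2 - δ * (y / z) ^ 2 = (x ^ 2 - δ * y ^ 2) / (z : F) ^ 2 := by
      field_simp
    rw [e1, ← hxy]
    field_simp
  rw [e, map_mul, mul_comm]
  exact (lt_div_iff₀ (zero_lt_iff.mpr hm0)).mp hz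

end nf

section main

variable {k L : Type} [Field k] [NumberField k] [Field L] [NumberField L] [Algebra k L]
  {A B : Lˣ}

theorem exists_theta {w : HeightOneSpectrum (𝓞 L)} {v : HeightOneSpectrum (𝓞 k)}
    (hw : w.asIdeal.comap (algebraMap (𝓞 k) (𝓞 L)) = v.asIdeal) {μ : Z0} (hμ : μ ≠ 0) :
    ∃ θ : kˣ, w.valuation L (algebraMap k L θ) < μ := by
  obtain ⟨e, he, hv⟩ := val_above (E := L) hw
  obtain ⟨m, hm⟩ : ∃ m : ℤ, μ = WithZero.exp m := ⟨WithZero.log μ, (WithZero.exp_log hμ).symm⟩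
  obtain ⟨x, hx0, hx⟩ := exists_val_eq (F := k) v
    (τ := WithZero.exp (-((m.natAbs : ℤ) + 1))) WithZero.exp_ne_zero
  refine ⟨Units.mk0 x hx0, ?_⟩
  rw [Units.val_mk0, hv, hx, hm]
  have h1 : (WithZero.exp (-((m.natAbs : ℤ) + 1)) : Z0) ≤ 1 := by
    rw [← WithZero.exp_zero, WithZero.exp_le_exp]
    omega
  calc _ ≤ (WithZero.exp (-((m.natAbs : ℤ) + 1)) : Z0) := pow_le_of_le_one zero_le h1 he
    _ < WithZero.exp m := by
      rw [WithZero.exp_lt_exp]
      omega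

/-- The hypothesis on the subgroup: it contains the quotients of quaternions with the same trace
`t` and the same norm `s` in the ground field, when `D = t² - 4 s` is one of the good
discriminants, and these are dense in suitable local classes. -/
def GoodN (R : Set (HeightOneSpectrum (𝓞 L))) (M : Subgroup (SL1 A B)) : Prop :=
  ∀ (v : HeightOneSpectrum (𝓞 k)) (D0 : kˣ), D0 ∉ LS (v.valuation k) →
    (∀ w ∈ R, w.asIdeal.comap (algebraMap (𝓞 k) (𝓞 L)) = v.asIdeal →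
      up L D0 ∉ LS (w.valuation L)) → ∀ θ : kˣ,
    ∃ D : kˣ, v.valuation k ((D : k) - D0) < v.valuation k (θ : k) ∧
      (∃ p : Qt A B, p.re = 0 ∧ p * p = algebraMap k L (D : k) • (1 : Qt A B)) ∧
      ∀ (t : k) (s : kˣ) (p p' : Qt A B), (D : k) = t ^ 2 - 4 * s → p.re = 0 →
        p * p = algebraMap k L (D : k) • (1 : Qt A B) → p'.re = 0 →
        p' * p' = algebraMap k L (D : k) • (1 : Qt A B) → ∀ x : SL1 A B,
          ((x : (Qt A B)ˣ) : Qt A B) * ((1 / 2 : L) • (algebraMap k L t • (1 : Qt A B) + p')) =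
            (1 / 2 : L) • (algebraMap k L t • (1 : Qt A B) + p) → x ∈ M

/-- The local solution. -/
theorem exists_frame (hab : Aniso A B) {w : HeightOneSpectrum (𝓞 L)} (hw : Ram A B w)
    {X : Qt A B} (hX : nrd X = 1) {C δ : Lˣ} (hC : (C : L) = 2 * (X.re + 1))
    (hδ : 4 * (δ : L) = C * (C - 4)) {t s D0 : L} {m : Lˣ} (hD0 : D0 = t ^ 2 - 4 * s)
    (hm : (m : L) = t ^ 2 - s * C) (hmH : m ∉ NF δ ⊔ LS (w.valuation L))
    (hCH : C ∈ NF δ) {μ : Z0} (hμ : μ ≠ 0) :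
    ∃ ξ : Qt A B, ξ.re = t / 2 ∧ (X * ξ).re = t / 2 ∧
      w.valuation L (t ^ 2 - 4 * nrd ξ - D0) < μ := by
  obtain ⟨x0, hx0⟩ : ∃ x0 : Qt A B, x0 = X - X.re • 1 := ⟨_, rfl⟩
  have hr0 : x0.re = 0 := by rw [hx0]; simp
  have hn0 : nrd x0 = 1 - X.re ^ 2 := by
    rw [← hX, hx0]
    simp only [nrd, QuaternionAlgebra.re_sub, QuaternionAlgebra.re_smul, QuaternionAlgebra.re_one,
      QuaternionAlgebra.imI_sub, QuaternionAlgebra.imI_smul, QuaternionAlgebra.imI_one,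
      QuaternionAlgebra.imJ_sub, QuaternionAlgebra.imJ_smul, QuaternionAlgebra.imJ_one,
      QuaternionAlgebra.imK_sub, QuaternionAlgebra.imK_smul, QuaternionAlgebra.imK_one, smul_eq_mul]
    ring
  have hδ' : (δ : L) = X.re ^ 2 - 1 := by
    rw [hC] at hδ
    linear_combination (1 / 4 : L) * hδ
  have hii : x0 * x0 = (δ : L) • (1 : Qt A B) := by
    rw [pure_sq hr0, hn0, hδ']
    congr 1
    ring
  obtain ⟨j, hj0, hj1, hji⟩ := exists_anti hr0
  have hnj : -nrd j ≠ 0 := neg_ne_zero.mpr fun h0 => hj1 (hab j h0)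
  obtain ⟨n, hn⟩ : ∃ n : Lˣ, (n : L) = -nrd j := ⟨Units.mk0 _ hnj, rfl⟩
  have hjj : j * j = (n : L) • (1 : Qt A B) := by rw [hn, pure_sq hj0]
  have hnH : n ∉ NF δ ⊔ LS (w.valuation L) := ram_pair hw hr0 hj0 hii hjj hji
  have hδw : δ ∉ LS (w.valuation L) := fun h =>
    hnH (by rw [NF_sup_of_mem' _ h]; exact Subgroup.mem_top _)
  have hmC : m * C⁻¹ ∉ NF δ ⊔ LS (w.valuation L) := fun h => by
    apply hmH
    have h1 := mul_mem h (Subgroup.mem_sup_left (T := LS (w.valuation L)) hCH)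
    rwa [inv_mul_cancel_right] at h1
  obtain ⟨f, g, hfg⟩ := exists_N w hδw hnH hmC hμ
  obtain ⟨η, hη⟩ : ∃ η : Qt A B, η = f • j + g • (x0 * j) := ⟨_, rfl⟩
  obtain ⟨N, hN⟩ : ∃ N : L, N = (n : L) * (f ^ 2 - δ * g ^ 2) := ⟨_, rfl⟩
  rw [← hN] at hfg
  have hxjr : (x0 * j).re = 0 := by
    have h1 := congrArg QuaternionAlgebra.re hji
    rw [QuaternionAlgebra.re_neg, re_mul_comm] at h1
    have h2 : 2 * (x0 * j).re = 0 := by linear_combination h1
    exact (mul_eq_zero.mp h2).resolve_left two_ne_zero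
  have hηr : η.re = 0 := by
    rw [hη, QuaternionAlgebra.re_add, QuaternionAlgebra.re_smul, QuaternionAlgebra.re_smul, hj0,
      hxjr, smul_zero, smul_zero, add_zero]
  have hxxj : x0 * (x0 * j) = (δ : L) • j := by
    rw [← mul_assoc, hii, smul_mul_assoc, one_mul]
  have hxjx : x0 * j * x0 = -((δ : L) • j) := by
    rw [mul_assoc, hji, mul_neg, hxxj]
  have hjxj : j * (x0 * j) = -((n : L) • x0) := by
    rw [← mul_assoc, hji, neg_mul, mul_assoc, hjj, mul_smul_comm, mul_one]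
  have hxjj : x0 * j * j = (n : L) • x0 := by
    rw [mul_assoc, hjj, mul_smul_comm, mul_one]
  have hxjxj : x0 * j * (x0 * j) = -((δ * n : L) • (1 : Qt A B)) := by
    rw [mul_assoc, hjxj, mul_neg, mul_smul_comm, hii, smul_smul, mul_comm (n : L)]
  have hηa : η * (X - X.re • 1) = -((X - X.re • 1) * η) := by
    rw [← hx0, hη, add_mul, mul_add, smul_mul_assoc, smul_mul_assoc, mul_smul_comm, mul_smul_comm,
      hji, hxjx, hxxj]
    module
  have hηη : η * η = N • (1 : Qt A B) := by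
    rw [hη, hN]
    simp only [add_mul, mul_add, smul_mul_assoc, mul_smul_comm, hjj, hjxj, hxjj, hxjxj, smul_smul]
    module
  have hC0 : (C : L) ≠ 0 := C.ne_zero
  obtain ⟨ξ, h1, h2, h3⟩ := exists_xi hX hC hC0 hηr hηa hηη t
  refine ⟨ξ, h1, h2, ?_⟩
  have e : t ^ 2 - 4 * nrd ξ - D0 = 4 * (N - ((m * C⁻¹ : Lˣ) : L)) := by
    rw [h3, hD0, Units.val_mul, Units.val_inv_eq_inv_val, hm]
    field_simp
    ring
  rw [e, map_mul]
  exact (mul_le_of_le_one_left' (val_four_le _)).trans_lt hfg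

theorem near_one_of_lt {w : Valuation L Z0} {x y : Lˣ}
    (h : w ((x : L) - y) < w (4 * (y : L))) : x / y ∈ LS w := by
  apply LS_of_close
  have hy : w (y : L) ≠ 0 := (Valuation.ne_zero_iff _).mpr y.ne_zero
  have hy0 : (y : L) ≠ 0 := y.ne_zero
  have e : ((x / y : Lˣ) : L) - 1 = (x - y) / y := by
    rw [Units.val_div_eq_div_val]
    field_simp
  rw [e, map_div₀, div_lt_iff₀ (zero_lt_iff.mpr hy), ← map_mul]
  exact h

/-- **Approximation at one ramified prime.** -/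
theorem near_one (h3 : Module.finrank k L = 3) (hab : Aniso A B) {a : kˣ}
    {R : Set (HeightOneSpectrum (𝓞 L))}
    (ha : ∀ w ∈ R, up L a ∉ LS (w.valuation L)) {M : Subgroup (SL1 A B)}
    (hM : GoodN (k := k) R M) {w : HeightOneSpectrum (𝓞 L)} (hw : Ram A B w) (x : SL1 A B)
    (hx : ∀ y : k, algebraMap k L y ≠ 2 * (((x : (Qt A B)ˣ) : Qt A B).re + 1)) {g : L}
    (hg : g ≠ 0) : ∃ m ∈ M,
      w.valuation L (nrd (((m : (Qt A B)ˣ) : Qt A B) - ((x : (Qt A B)ˣ) : Qt A B))) ≤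
        w.valuation L g ^ 2 ∧
      ∀ w', Ram A B w' → w' ≠ w →
        w'.valuation L (nrd (((m : (Qt A B)ˣ) : Qt A B) - 1)) ≤ w'.valuation L g ^ 2 := by
  obtain ⟨v, hv⟩ := Arith.exists_below (F := k) w
  obtain ⟨X, hXx⟩ : ∃ X : Qt A B, X = ((x : (Qt A B)ˣ) : Qt A B) := ⟨_, rfl⟩
  have hX : nrd X = 1 := by rw [hXx]; exact x.2
  rw [← hXx] at hx ⊢
  have hc0 : 2 * (X.re + 1) ≠ 0 := fun h => hx 0 (by rw [h, map_zero])
  have hc4 : 2 * (X.re + 1) - 4 ≠ 0 := fun h => hx 4 (by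
    rw [map_ofNat]
    linear_combination -h)
  obtain ⟨C, hC⟩ : ∃ C : Lˣ, (C : L) = 2 * (X.re + 1) := ⟨Units.mk0 _ hc0, rfl⟩
  rw [← hC] at hx hc4
  have hδ0 : (C : L) * (C - 4) / 4 ≠ 0 :=
    div_ne_zero (mul_ne_zero C.ne_zero hc4) (by norm_num)
  obtain ⟨δ, hδ'⟩ : ∃ δ : Lˣ, (δ : L) = C * (C - 4) / 4 := ⟨Units.mk0 _ hδ0, rfl⟩
  have hδ : 4 * (δ : L) = C * (C - 4) := by
    rw [hδ']
    ring
  have hCH : C ∈ NF δ := by
    refine ⟨1 + X.re, 1, ?_⟩
    rw [hδ', hC]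
    ring
  have hδw : δ ∉ LS (w.valuation L) := by
    obtain ⟨x0, hx0⟩ : ∃ x0 : Qt A B, x0 = (2 : L) • X - (2 * X.re) • 1 := ⟨_, rfl⟩
    obtain ⟨h1, h2⟩ := pure_part (ξ := X) (t := 2 * X.re) (by ring)
    rw [← hx0] at h1 h2
    have e4 : (4 : L) ≠ 0 := by norm_num
    have h4 : δ * Units.mk0 4 e4 ∉ LS (w.valuation L) := by
      refine notMem_of_pure hw h1 ?_
      rw [h2, hX, Units.val_mul, Units.val_mk0]
      congr 1
      rw [hC] at hδ
      linear_combination -hδ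
    intro h5
    exact h4 (mul_mem h5 four_mem)
  obtain ⟨t, s, D0, m, hD0, hm, hmH, hD0w, hD0R⟩ := loc_choice2 h3 ha hv (fun y => hx y) hCH hδ
    hδw (fun t s D0 m h1 h2 h4 h5 => by
      have h6 : w.valuation L (4 * (up L D0 : Lˣ)) ≠ 0 :=
        (Valuation.ne_zero_iff _).mpr (mul_ne_zero (by norm_num) (Units.ne_zero _))
      obtain ⟨ξ, hξ1, hξ2, hξ3⟩ := exists_frame hab hw hX hC hδ (t := algebraMap k L t)
        (s := algebraMap k L s) (D0 := algebraMap k L D0)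
        (by rw [h1, map_sub, map_mul, map_pow, map_ofNat]) h2 h4 hCH h6
      obtain ⟨h7, h8⟩ := pure_part hξ1
      have h9 : algebraMap k L t ^ 2 - 4 * nrd ξ ≠ 0 := by
        intro h9
        rw [h9, zero_sub, Valuation.map_neg, map_mul] at hξ3
        have h10 := hξ3.trans_le (mul_le_of_le_one_left' (val_four_le _))
        exact lt_irrefl _ h10
      refine notMem_of_pure (D := Units.mk0 _ h9) hw h7 h8 ?_
      have h10 := near_one_of_lt (w := w.valuation L) (x := Units.mk0 _ h9) (y := up L D0) hξ3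
      have h11 := mul_mem h10 h5
      rwa [div_mul_cancel] at h11)
  -- the tolerances
  obtain ⟨S0, hS0⟩ : ∃ S0 : L, S0 = algebraMap k L s := ⟨_, rfl⟩
  obtain ⟨E0, hE0⟩ : ∃ E0 : L, E0 = algebraMap k L D0 := ⟨_, rfl⟩
  have hS00 : S0 ≠ 0 := by rw [hS0]; exact (map_ne_zero _).mpr s.ne_zero
  have hE00 : E0 ≠ 0 := by rw [hE0]; exact (map_ne_zero _).mpr D0.ne_zero
  have hE0v : E0 = algebraMap k L t ^ 2 - 4 * S0 := by
    rw [hE0, hS0, hD0, map_sub, map_mul, map_pow, map_ofNat]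
  have nz : ∀ {y : L}, y ≠ 0 → w.valuation L y ≠ 0 := fun h => (Valuation.ne_zero_iff _).mpr h
  have h4L : (4 : L) ≠ 0 := by norm_num
  obtain ⟨T, hT⟩ : ∃ T : Z0, T = w.valuation L g ^ 2 * w.valuation L 4 * w.valuation L S0 :=
    ⟨_, rfl⟩
  have hT0 : T ≠ 0 := by
    rw [hT]
    exact mul_ne_zero (mul_ne_zero (pow_ne_zero 2 (nz hg)) (nz h4L)) (nz hS00)
  obtain ⟨τ, hτ0, hτ⟩ := exists_tau 1 (T * w.valuation L (4 * E0))
    (mul_ne_zero hT0 (nz (mul_ne_zero h4L hE00)))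
  obtain ⟨μ, hμ⟩ : ∃ μ : Z0, μ = min τ (min (w.valuation L E0) (w.valuation L (4 * S0))) :=
    ⟨_, rfl⟩
  have hμ0 : μ ≠ 0 := by
    rw [hμ]
    exact (lt_min (zero_lt_iff.mpr hτ0) (lt_min (zero_lt_iff.mpr (nz hE00))
      (zero_lt_iff.mpr (nz (mul_ne_zero h4L hS00))))).ne'
  obtain ⟨θ, hθ⟩ := exists_theta (k := k) hv hμ0
  obtain ⟨ξ, hξ1, hξ2, hξ3⟩ := exists_frame hab hw hX hC hδ (t := algebraMap k L t)
    (s := S0) (D0 := E0) hE0v (by rw [hm, hS0]) hmH hCH hμ0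
  have hD0v : D0 ∉ LS (v.valuation k) := fun h => hD0w (LS_map hv h)
  obtain ⟨D, hDD0, ⟨p, hp, hpp⟩, hDM⟩ := hM v D0 hD0v hD0R θ
  have hDw : w.valuation L (algebraMap k L (D : k) - E0) < μ := by
    rw [hE0, ← map_sub]
    exact ((val_lt_val_iff hv _ _).mpr hDD0).trans hθ
  obtain ⟨D', hD'⟩ : ∃ D' : L, D' = algebraMap k L t ^ 2 - 4 * nrd ξ := ⟨_, rfl⟩
  rw [← hD'] at hξ3
  have hD'v : w.valuation L D' = w.valuation L E0 := by
    have e : D' = E0 + (D' - E0) := by ring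
    rw [e]
    refine Valuation.map_add_eq_of_lt_left _ (hξ3.trans_le ?_)
    rw [hμ]
    exact (min_le_right _ _).trans (min_le_left _ _)
  have hD'0 : D' ≠ 0 := by
    rintro h
    rw [h, map_zero] at hD'v
    exact nz hE00 hD'v.symm
  have hclose : w.valuation L (algebraMap k L (D : k) - D') ^ 2 ≤
      T * w.valuation L (4 * D') := by
    have h1 : w.valuation L (algebraMap k L (D : k) - D') < τ := by
      have e : algebraMap k L (D : k) - D' = (algebraMap k L (D : k) - E0) - (D' - E0) := by ring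
      rw [e]
      refine (Valuation.map_sub_lt _ hDw hξ3).trans_le ?_
      rw [hμ]
      exact min_le_left _ _
    have h2 := hτ _ h1
    rw [mul_one] at h2
    rw [map_mul, hD'v, ← map_mul]
    exact h2.le
  -- the norm
  have hSv : w.valuation L ((algebraMap k L t ^ 2 - algebraMap k L (D : k)) / 4) =
      w.valuation L S0 := by
    have e : (algebraMap k L t ^ 2 - algebraMap k L (D : k)) / 4 =
        S0 + -((algebraMap k L (D : k) - E0) / 4) := by
      rw [hE0v]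
      ring
    rw [e]
    refine Valuation.map_add_eq_of_lt_left _ ?_
    rw [Valuation.map_neg, map_div₀, div_lt_iff₀ (zero_lt_iff.mpr (nz h4L)), mul_comm, ← map_mul]
    refine hDw.trans_le ?_
    rw [hμ]
    exact (min_le_right _ _).trans (min_le_right _ _)
  have hSk : (t ^ 2 - (D : k)) / 4 ≠ 0 := by
    intro h
    have e : (algebraMap k L t ^ 2 - algebraMap k L (D : k)) / 4 =
        algebraMap k L ((t ^ 2 - (D : k)) / 4) := by
      rw [map_div₀, map_sub, map_pow, map_ofNat]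
    rw [e, h, map_zero, map_zero] at hSv
    exact nz hS00 hSv.symm
  obtain ⟨S, hS⟩ : ∃ S : kˣ, (S : k) = (t ^ 2 - (D : k)) / 4 := ⟨Units.mk0 _ hSk, rfl⟩
  have hSL : algebraMap k L (S : k) = (algebraMap k L t ^ 2 - algebraMap k L (D : k)) / 4 := by
    rw [hS, map_div₀, map_sub, map_pow, map_ofNat]
  have hSL0 : algebraMap k L (S : k) ≠ 0 := (map_ne_zero _).mpr S.ne_zero
  have hDS : (D : k) = t ^ 2 - 4 * S := by
    rw [hS]
    ring
  -- the two pure quaternions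
  obtain ⟨h7, h8⟩ := pure_part hξ1
  obtain ⟨h9, h10⟩ := pure_part hξ2
  rw [← hD'] at h8
  rw [nrd_mul, hX, one_mul, ← hD'] at h10
  obtain ⟨p1, hp1, hpp1, hp1w, -⟩ := exists_conj_near hab hw hp hpp h10 hD'0 hT0 hclose
    (fun _ => 1) (fun _ => one_ne_zero)
  obtain ⟨p2, hp2, hpp2, hp2w, hp2w'⟩ := exists_conj_near hab hw hp1 hpp1 h8 hD'0 hT0 hclose
    (fun w' => w'.valuation L g ^ 2 * w'.valuation L 4 * w'.valuation L (algebraMap k L (S : k)))
    (fun w' => mul_ne_zero (mul_ne_zero (pow_ne_zero 2 ((Valuation.ne_zero_iff _).mpr hg))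
      ((Valuation.ne_zero_iff _).mpr h4L)) ((Valuation.ne_zero_iff _).mpr hSL0))
  obtain ⟨ξ1, hξ1'⟩ : ∃ ξ1 : Qt A B, ξ1 = (1 / 2 : L) • (algebraMap k L t • (1 : Qt A B) + p1) :=
    ⟨_, rfl⟩
  obtain ⟨ξ2, hξ2'⟩ : ∃ ξ2 : Qt A B, ξ2 = (1 / 2 : L) • (algebraMap k L t • (1 : Qt A B) + p2) :=
    ⟨_, rfl⟩
  have hnξ1 : nrd ξ1 = algebraMap k L (S : k) := by
    rw [hξ1', nrd_half hp1 hpp1, hSL]
  have hnξ2 : nrd ξ2 = algebraMap k L (S : k) := by
    rw [hξ2', nrd_half hp2 hpp2, hSL]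
  obtain ⟨y, hy⟩ := exists_SL1 ((algebraMap k L (S : k))⁻¹ • (ξ1 * star ξ2)) (by
    rw [Two.nrd_smul, nrd_mul, Two.nrd_star, hnξ1, hnξ2]
    field_simp)
  have hyξ : ((y : (Qt A B)ˣ) : Qt A B) * ξ2 = ξ1 := by
    rw [hy, smul_mul_assoc, mul_assoc, Two.star_mul_self', hnξ2, mul_smul_comm, mul_one, smul_smul,
      inv_mul_cancel₀ hSL0, one_smul]
  have hyM : y ∈ M := by
    refine hDM t S p1 p2 hDS hp1 hpp1 hp2 hpp2 y ?_
    rw [← hξ1', ← hξ2']
    exact hyξ
  have h2L : (2 : L) ≠ 0 := two_ne_zero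
  have hhalf : ∀ w' : HeightOneSpectrum (𝓞 L), w'.valuation L (1 / 2 : L) ^ 2 *
      w'.valuation L 4 = 1 := fun w' => by
    rw [← map_pow, ← map_mul]
    norm_num
  have hwB : B ∉ NF A ⊔ LS (w.valuation L) := hw
  refine ⟨y, hyM, ?_, fun w' hr hne => ?_⟩
  · have e1 : (((y : (Qt A B)ˣ) : Qt A B) - X) * ξ2 =
        (1 / 2 : L) • (p1 - ((2 : L) • (X * ξ) - algebraMap k L t • (1 : Qt A B))) -
          X * ((1 / 2 : L) • (p2 - ((2 : L) • ξ - algebraMap k L t • (1 : Qt A B)))) := by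
      rw [sub_mul, hyξ, hξ1', hξ2']
      simp only [smul_add, smul_sub, mul_sub, mul_add, mul_smul_comm, mul_one, smul_smul]
      module
    have h11 : qv hab hwB ((((y : (Qt A B)ˣ) : Qt A B) - X) * ξ2) ≤
        w.valuation L (1 / 2 : L) ^ 2 * T := by
      rw [e1]
      refine (qv hab hwB).map_sub_le ?_ ?_
      · rw [qv_smul]
        exact mul_le_mul_right hp1w _
      · rw [map_mul, qv_apply hab hwB X, hX, map_one, one_mul, qv_smul]
        exact mul_le_mul_right hp2w _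
    have h12 : w.valuation L (nrd (((y : (Qt A B)ˣ) : Qt A B) - X)) * w.valuation L S0 ≤
        w.valuation L g ^ 2 * w.valuation L S0 := by
      rw [qv_apply, nrd_mul, map_mul, hnξ2, hSL, hSv] at h11
      refine h11.trans (le_of_eq ?_)
      rw [hT]
      calc _ = w.valuation L (1 / 2 : L) ^ 2 * w.valuation L 4 *
            (w.valuation L g ^ 2 * w.valuation L S0) := by
            ac_rfl
        _ = _ := by rw [hhalf, one_mul]
    exact (mul_le_mul_iff_left₀ (zero_lt_iff.mpr (nz hS00))).mp h12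
  · have hrB : B ∉ NF A ⊔ LS (w'.valuation L) := hr
    have e1 : (((y : (Qt A B)ˣ) : Qt A B) - 1) * ξ2 = (-(1 / 2) : L) • (p2 - p1) := by
      rw [sub_mul, one_mul, hyξ, hξ1', hξ2']
      module
    have h11 : qv hab hrB ((((y : (Qt A B)ˣ) : Qt A B) - 1) * ξ2) ≤
        w'.valuation L (1 / 2 : L) ^ 2 * (w'.valuation L g ^ 2 * w'.valuation L 4 *
          w'.valuation L (algebraMap k L (S : k))) := by
      rw [e1, qv_smul, Valuation.map_neg]
      exact mul_le_mul_right (hp2w' w' hr hne) _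
    have hSw' : w'.valuation L (algebraMap k L (S : k)) ≠ 0 := (Valuation.ne_zero_iff _).mpr hSL0
    have h12 : w'.valuation L (nrd (((y : (Qt A B)ˣ) : Qt A B) - 1)) *
        w'.valuation L (algebraMap k L (S : k)) ≤
        w'.valuation L g ^ 2 * w'.valuation L (algebraMap k L (S : k)) := by
      rw [qv_apply, nrd_mul, map_mul, hnξ2] at h11
      refine h11.trans (le_of_eq ?_)
      calc _ = w'.valuation L (1 / 2 : L) ^ 2 * w'.valuation L 4 *
            (w'.valuation L g ^ 2 * w'.valuation L (algebraMap k L (S : k))) := by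
            ac_rfl
        _ = _ := by rw [hhalf, one_mul]
    exact (mul_le_mul_iff_left₀ (zero_lt_iff.mpr hSw')).mp h12

end main

end Vale.Agent.P011.D4W.H359
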