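import Vale.Agent.P011.D4W.H359.Top
import Vale.Agent.P011.D4W.H183.GoodNear
import Vale.Agent.P011.D4Y.H63.Mix

/-!
Block D4W: the short subgroup lies in the finite residual, without a condition at the primes of
even local degree.
-/

open NumberField IsDedekindDomain

namespace Vale.Agent.P011.D4W.H359

open Vale.Agent.P011.Arith Vale.Agent.P011.MPQ Vale.Agent.P011.D4 Vale.Agent.P011.D4.Oct
  Vale.Agent.P011.E6 Vale.Agent.P011.D4X Vale.Agent.P011.D4Y

section alg

variable {k L E : Type} [Field k] [Field L] [Field E] [Algebra k L] [Algebra k E] [Algebra L E]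
  [IsScalarTower k L E] [NeZero (2 : E)] {ρ σ ι : E ≃ₐ[k] E} {α : E}
  {a b c : kˣ} {q : Lˣ} (H : HyI ρ σ ι α a b c q)

include H

theorem zFI_mul (x0 : Qt a b) {x : Qt (up L a) (q * up L b)} (hx : nrd x = 1)
    (ξ : Qt (up L a) (q * up L b)) (s : kˣ) (y : OctL E a b c) :
    zFI ρ α q x0 (x * ξ) s y = shortFun ρ (psiL α q x) (zFI ρ α q x0 ξ s y) := by
  have h1 := H.psiL_mul x ξ
  unfold zFI shortFun
  rw [h1, nrd_mul, hx, one_mul]
  ext1
  · simp only [qmap_mul, star_mul, mul_assoc]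
  · simp only [qmap_mul, star_mul, mul_assoc, smul_mul_assoc]

end alg

section arith

variable {k L E : Type} [Field k] [NumberField k] [Field L] [NumberField L] [Field E]
  [Algebra k L] [Algebra k E] [Algebra L E] [IsScalarTower k L E] [NeZero (2 : E)]
  {ρ σ ι : E ≃ₐ[k] E} {α : E} {a b c : kˣ} {q : Lˣ}
  (H : HyI ρ σ ι α a b c q)

include H

omit [NumberField k] [NumberField L] in
theorem exists_mid (s : kˣ) (x0 : Qt a b) (ξ : Qt (up L a) (q * up L b))
    (n0 : nrd x0 = (s : k)) (n1 : nrd ξ = algebraMap k L (s : k)) :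
    ∃ g : OctL E a b c ≃ₗ[E] OctL E a b c,
      ∀ y, g y = (algebraMap k E (s : k))⁻¹ • zFI ρ α q x0 ξ (s ^ 2) y := by
  obtain ⟨z0, -, -, hz0⟩ := exists_zI (c := c) H x0 ξ (s ^ 2) (by
    rw [n0, n1, ← IsScalarTower.algebraMap_apply, ρ.commutes, ρ.commutes,
      Units.val_pow_eq_pow_val, map_pow, map_pow]
    ring)
  have hlv : ((up L s⁻¹ : Lˣ) : L) = (algebraMap k L (s : k))⁻¹ := by
    change algebraMap k L ((s⁻¹ : kˣ) : k) = _
    rw [Units.val_inv_eq_inv_val, map_inv₀]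
  have hlE : ρ (algebraMap L E ((up L s⁻¹ : Lˣ) : L)) = (algebraMap k E (s : k))⁻¹ := by
    rw [hlv, map_inv₀, map_inv₀, ← IsScalarTower.algebraMap_apply, ρ.commutes]
  refine ⟨(H.scal (up L s⁻¹) * z0 : ATI ρ σ ι α a b c q).1, fun y => ?_⟩
  change (H.scal (up L s⁻¹)).1 (z0.1 y) = _
  rw [H.scal_apply, hz0, hlE]

/-- **The short subgroup** lies in the finite residual. -/
theorem short_mem {x : SL1 (up L a) (q * up L b)} {g : OctL E a b c ≃ₗ[E] OctL E a b c}
    (hg : ∀ y : OctL E a b c, g y = shortFun ρ (psiL α q ((x : (Qt (up L a) (q * up L b))ˣ) :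
      Qt (up L a) (q * up L b))) y) : g ∈ RsI ρ σ ι α a b c q := by
  classical
  choose S hS1 hS2 using exists_shortI (c := c) H
  have hmul : ∀ x y, S (x * y) = S x * S y := by
    intro x y
    apply LinearEquiv.ext
    intro z
    rw [LinearEquiv.mul_apply, hS2, hS2, hS2, ← Em.shortFun_mul, ← H.psiL_mul]
    rfl
  let s : SL1 (up L a) (q * up L b) →* GTI ρ σ ι α a b c q :=
    MonoidHom.mk' (fun x => ⟨S x, hS1 x⟩) fun x y => Subtype.ext (hmul x y)
  have hgS : g = S x := by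
    apply LinearEquiv.ext
    intro y
    rw [hg, hS2]
  rw [hgS, mem_RsI]
  refine ⟨hS1 x, ?_⟩
  rw [mem_fres]
  intro N hN
  have hfi : N.FiniteIndex := ⟨hN⟩
  have hNc : N.normalCore.index ≠ 0 := (inferInstance : N.normalCore.FiniteIndex).index_ne_zero
  apply Subgroup.normalCore_le N
  suffices h : N.normalCore.comap s = ⊤ by
    have : x ∈ N.normalCore.comap s := by rw [h]; exact Subgroup.mem_top x
    exact this
  obtain ⟨hn, hi⟩ := H24.comap_normal_index s N.normalCore_normal hNc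
  refine top_of_pairs (k := k) (a := a)
    (R := {w | Ram (up L a) q w ∨ Ram (up L a) (q * up L b) w}) H.h3 H.aniso1
    (fun w hw => hw.elim ram_not_LS ram_not_LS) hn hi ?_
  intro v D0 hD0 hD0R θ
  obtain ⟨D, hD1, hD2, hD3⟩ := H183.good_near H v D0 hD0 (fun w h1 h2 => hD0R w h2 h1) θ
  refine ⟨D, hD1, hD2.2.2.2.1, ?_⟩
  intro t r p p' hDt hp hpp hp' hpp' y hy
  obtain ⟨w0, hw0, hww0⟩ := hD2.2.1
  have n0 : nrd ((1 / 2 : k) • (t • (1 : Qt a b) + w0)) = (r : k) := by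
    rw [nrd_half hw0 hww0, hDt]
    ring
  have n1 : nrd ((1 / 2 : L) • (algebraMap k L t • (1 : Qt (up L a) (q * up L b)) + p')) =
      algebraMap k L (r : k) := by
    rw [nrd_half hp' hpp', hDt, map_sub, map_mul, map_pow, map_ofNat]
    ring
  obtain ⟨g2, hg2⟩ := exists_mid (c := c) H r _ _ n0 n1
  have h2 : g2 ∈ RsI ρ σ ι α a b c q :=
    D4Y.H63.mid_mem H r t D w0 p' hDt hD2 hD3 hw0 hww0 hp' hpp' g2 hg2
  have h1 : S y * g2 ∈ RsI ρ σ ι α a b c q := by
    refine D4Y.H63.mid_mem H r t D w0 p hDt hD2 hD3 hw0 hww0 hp hpp _ fun z => ?_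
    rw [LinearEquiv.mul_apply, hg2, map_smul, hS2, ← zFI_mul H _ y.2, hy]
  have h3 := mul_mem h1 (inv_mem h2)
  rw [mul_inv_cancel_right] at h3
  obtain ⟨h6, h7⟩ := mem_RsI.1 h3
  exact mem_fres.1 h7 _ hNc

end arith

end Vale.Agent.P011.D4W.H359
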