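import Vale.Agent.P011.D4W.H359.One

/-!
Block D4W, the short subgroup: generation of the norm-one group of a quaternion algebra over a
cubic extension by quotients of quaternions with trace and norm in the ground field.
-/

open NumberField IsDedekindDomain

namespace Vale.Agent.P011.D4W.H359

open Vale.Agent.P011.Arith Vale.Agent.P011.MPQ Vale.Agent.P011.D4 Vale.Agent.P011.D4.TG
  Vale.Agent.P011.Two Vale.Agent.P011.D4X Vale.Agent.P011.D4Y

section quad

variable {k L : Type} [Field k] [Field L] [Algebra k L]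

/-- No quadratic equations in a cubic extension. -/
theorem quad_indep (h3 : Module.finrank k L = 3) {l : L} (hl : ∀ x : k, algebraMap k L x ≠ l)
    {a2 a1 a0 : k} (h : algebraMap k L a2 * l ^ 2 + algebraMap k L a1 * l + algebraMap k L a0 = 0) :
    a2 = 0 ∧ a1 = 0 ∧ a0 = 0 := by
  have hfin : Module.Finite k L := Module.finite_of_finrank_pos (by rw [h3]; norm_num)
  have hi : IsIntegral k l := IsIntegral.of_finite k l
  have h1 := minpoly.degree_dvd hi
  rw [h3] at h1
  have h2 : (minpoly k l).natDegree = 3 := by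
    rcases (Nat.Prime.eq_one_or_self_of_dvd Nat.prime_three _ h1) with h4 | h4
    · obtain ⟨x, hx⟩ := minpoly.natDegree_eq_one_iff.mp h4
      exact absurd hx (hl x)
    · exact h4
  obtain ⟨p, hp⟩ : ∃ p : Polynomial k, p = Polynomial.C a2 * Polynomial.X ^ 2 +
    Polynomial.C a1 * Polynomial.X + Polynomial.C a0 := ⟨_, rfl⟩
  have hp0 : p = 0 := by
    by_contra hne
    have h5 := minpoly.degree_le_of_ne_zero k l hne (by
      rw [hp]
      simp only [map_add, map_mul, map_pow, Polynomial.aeval_C, Polynomial.aeval_X]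
      exact h)
    have h6 := Polynomial.natDegree_le_natDegree h5
    have h7 : p.natDegree ≤ 2 := by
      rw [hp]
      exact Polynomial.natDegree_quadratic_le
    omega
  have hc : ∀ n, (Polynomial.C a2 * Polynomial.X ^ 2 + Polynomial.C a1 * Polynomial.X +
      Polynomial.C a0).coeff n = 0 := fun n => by
    rw [← hp, hp0, Polynomial.coeff_zero]
  refine ⟨?_, ?_, ?_⟩
  · have := hc 2
    simpa [Polynomial.coeff_X, Polynomial.coeff_C] using this
  · have := hc 1
    simpa [Polynomial.coeff_X, Polynomial.coeff_C] using this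
  · have := hc 0
    simpa [Polynomial.coeff_X, Polynomial.coeff_C] using this

theorem exists_notMem (h3 : Module.finrank k L = 3) : ∃ l : L, ∀ x : k, algebraMap k L x ≠ l := by
  by_contra hcon
  push Not at hcon
  have h1 : Module.finrank k L ≤ 1 := finrank_le_one (1 : L) fun w => by
    obtain ⟨x, hx⟩ := hcon w
    exact ⟨x, by rw [Algebra.smul_def, mul_one, hx]⟩
  omega

end quad

section main

variable {k L : Type} [Field k] [NumberField k] [Field L] [NumberField L] [Algebra k L]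
  {A B : Lˣ}

/-- Close elements at one ramified prime. -/
def Cls (M : Subgroup (SL1 A B)) (w : HeightOneSpectrum (𝓞 L)) (g : L) (x : SL1 A B) : Prop :=
  ∃ m ∈ M,
    w.valuation L (nrd (((m : (Qt A B)ˣ) : Qt A B) - ((x : (Qt A B)ˣ) : Qt A B))) ≤
      w.valuation L g ^ 2 ∧
    ∀ w', Ram A B w' → w' ≠ w →
      w'.valuation L (nrd (((m : (Qt A B)ˣ) : Qt A B) - 1)) ≤ w'.valuation L g ^ 2

theorem Cls.mul (hab : Aniso A B) {M : Subgroup (SL1 A B)} {w : HeightOneSpectrum (𝓞 L)}
    (hw : Ram A B w) {g : L} {x y : SL1 A B} (hx : Cls M w g x) (hy : Cls M w g y) :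
    Cls M w g (x * y) := by
  obtain ⟨m, hm, h1, h2⟩ := hx
  obtain ⟨n, hn, h3, h4⟩ := hy
  have hn1 : nrd ((n : (Qt A B)ˣ) : Qt A B) = 1 := n.2
  have hx1 : nrd ((x : (Qt A B)ˣ) : Qt A B) = 1 := x.2
  refine ⟨m * n, mul_mem hm hn, ?_, fun w' hr hne => ?_⟩
  · have e : (((m * n : SL1 A B) : (Qt A B)ˣ) : Qt A B) - (((x * y : SL1 A B) : (Qt A B)ˣ) : Qt A B) =
        (((m : (Qt A B)ˣ) : Qt A B) - ((x : (Qt A B)ˣ) : Qt A B)) * ((n : (Qt A B)ˣ) : Qt A B) +
          ((x : (Qt A B)ˣ) : Qt A B) *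
            (((n : (Qt A B)ˣ) : Qt A B) - ((y : (Qt A B)ˣ) : Qt A B)) := by
      rw [Subgroup.coe_mul, Subgroup.coe_mul, Units.val_mul, Units.val_mul, sub_mul, mul_sub]
      abel
    change qv hab hw _ ≤ _
    rw [e]
    refine Valuation.map_add_le _ ?_ ?_
    · rw [map_mul, qv_apply hab hw ((n : (Qt A B)ˣ) : Qt A B), hn1, map_one, mul_one]
      exact h1
    · rw [map_mul, qv_apply hab hw ((x : (Qt A B)ˣ) : Qt A B), hx1, map_one, one_mul]
      exact h3
  · have e : (((m * n : SL1 A B) : (Qt A B)ˣ) : Qt A B) - 1 =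
        (((m : (Qt A B)ˣ) : Qt A B) - 1) * ((n : (Qt A B)ˣ) : Qt A B) +
          (((n : (Qt A B)ˣ) : Qt A B) - 1) := by
      rw [Subgroup.coe_mul, Units.val_mul, sub_mul, one_mul]
      abel
    change qv hab hr _ ≤ _
    rw [e]
    refine Valuation.map_add_le _ ?_ (h4 w' hr hne)
    rw [map_mul, qv_apply hab hr ((n : (Qt A B)ˣ) : Qt A B), hn1, map_one, mul_one]
    exact h2 w' hr hne

/-- The elements which are not central. -/
theorem exists_gen (h3 : Module.finrank k L = 3) (hab : Aniso A B) (x : SL1 A B)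
    (hx : ((x : (Qt A B)ˣ) : Qt A B) ≠ (((x : (Qt A B)ˣ) : Qt A B).re) • 1) :
    ∃ y z : SL1 A B, x = y * z ∧
      (∀ t : k, algebraMap k L t ≠ 2 * (((y : (Qt A B)ˣ) : Qt A B).re + 1)) ∧
      ((∀ t : k, algebraMap k L t ≠ 2 * (((z : (Qt A B)ˣ) : Qt A B).re + 1)) ∨ z = 1) := by
  by_cases hg : ∀ t : k, algebraMap k L t ≠ 2 * (((x : (Qt A B)ˣ) : Qt A B).re + 1)
  · exact ⟨x, 1, by rw [mul_one], hg, Or.inr rfl⟩
  push Not at hg
  obtain ⟨t0, ht0⟩ := hg
  obtain ⟨X, hXx⟩ : ∃ X : Qt A B, X = ((x : (Qt A B)ˣ) : Qt A B) := ⟨_, rfl⟩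
  have hX : nrd X = 1 := by rw [hXx]; exact x.2
  rw [← hXx] at hx ht0
  obtain ⟨r, hr⟩ : ∃ r : k, algebraMap k L r = X.re := ⟨t0 / 2 - 1, by
    rw [map_sub, map_div₀, map_one, ht0, map_ofNat]
    ring⟩
  obtain ⟨l, hl⟩ := exists_notMem h3
  obtain ⟨x0, hx0⟩ : ∃ x0 : Qt A B, x0 = X - X.re • 1 := ⟨_, rfl⟩
  have hx0n : x0 ≠ 0 := by
    rw [hx0]
    exact sub_ne_zero.mpr hx
  have hr0 : x0.re = 0 := by rw [hx0]; simp
  have hXe : X = X.re • 1 + x0 := by rw [hx0]; abel
  have hn0 : nrd x0 = 1 - X.re ^ 2 := by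
    rw [← hX, hx0]
    simp only [nrd, QuaternionAlgebra.re_sub, QuaternionAlgebra.re_smul, QuaternionAlgebra.re_one,
      QuaternionAlgebra.imI_sub, QuaternionAlgebra.imI_smul, QuaternionAlgebra.imI_one,
      QuaternionAlgebra.imJ_sub, QuaternionAlgebra.imJ_smul, QuaternionAlgebra.imJ_one,
      QuaternionAlgebra.imK_sub, QuaternionAlgebra.imK_smul, QuaternionAlgebra.imK_one, smul_eq_mul]
    ring
  obtain ⟨δ, hδ⟩ : ∃ δ : k, δ = r ^ 2 - 1 := ⟨_, rfl⟩
  have hδL : algebraMap k L δ = -nrd x0 := by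
    rw [hδ, hn0, ← hr, map_sub, map_pow, map_one]
    ring
  have hδ0 : δ ≠ 0 := by
    intro h
    apply hx0n
    apply hab
    rw [h, map_zero] at hδL
    linear_combination hδL
  have hsq : x0 * x0 = algebraMap k L δ • (1 : Qt A B) := by rw [pure_sq hr0, hδL]
  have hsx : star x0 = -x0 := star_pure hr0
  have hd0 : 1 - algebraMap k L δ * l ^ 2 ≠ 0 := by
    intro h
    have h1 : nrd (1 + l • x0) = 1 - algebraMap k L δ * l ^ 2 := by
      rw [Two.nrd_one_add, Two.nrd_smul, QuaternionAlgebra.re_smul, hr0, hδL]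
      simp
      ring
    have h2 := hab _ (h1.trans h)
    have h4 := congrArg QuaternionAlgebra.re h2
    rw [QuaternionAlgebra.re_add, QuaternionAlgebra.re_smul, hr0, smul_zero, add_zero] at h4
    exact one_ne_zero h4
  obtain ⟨d, hd⟩ : ∃ d : L, d = 1 - algebraMap k L δ * l ^ 2 := ⟨_, rfl⟩
  rw [← hd] at hd0
  -- the element `(1 + l x₀)² / nrd (1 + l x₀)`
  obtain ⟨Y, hY⟩ : ∃ Y : Qt A B, Y = ((1 + algebraMap k L δ * l ^ 2) / d) • 1 +
    (2 * l / d) • x0 := ⟨_, rfl⟩
  have hYre : Y.re = (1 + algebraMap k L δ * l ^ 2) / d := by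
    rw [hY]
    simp [hr0]
  have hYn : nrd Y = 1 := by
    have h1 : Y * star Y = (1 : L) • 1 := by
      rw [hY, star_add, QuaternionAlgebra.star_smul, QuaternionAlgebra.star_smul, star_one, hsx]
      simp only [add_mul, mul_add, smul_mul_assoc, mul_smul_comm, one_mul, mul_one, mul_neg,
        smul_neg, hsq, smul_smul]
      have : (1 + algebraMap k L δ * l ^ 2) / d * ((1 + algebraMap k L δ * l ^ 2) / d) -
          2 * l / d * (2 * l / d) * algebraMap k L δ = 1 := by
        field_simp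
        rw [hd]
        ring
      calc _ = ((1 + algebraMap k L δ * l ^ 2) / d * ((1 + algebraMap k L δ * l ^ 2) / d) -
          2 * l / d * (2 * l / d) * algebraMap k L δ) • (1 : Qt A B) := by module
        _ = _ := by rw [this]
    rw [TG.mul_star_self'] at h1
    exact smul_one_inj h1
  obtain ⟨y, hy⟩ := exists_SL1 Y hYn
  have hinv : ((((y⁻¹ : SL1 A B) : (Qt A B)ˣ)) : Qt A B).re = Y.re := by
    rw [coe_inv_sl, QuaternionAlgebra.re_star, hy]
    simp
  refine ⟨x * y, y⁻¹, by rw [mul_inv_cancel_right], fun t ht => ?_, Or.inl fun t ht => ?_⟩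
  · have h1 : (((x * y : SL1 A B) : (Qt A B)ˣ) : Qt A B).re =
        (algebraMap k L r * (1 + algebraMap k L δ * l ^ 2) + 2 * l * algebraMap k L δ) / d := by
      have e : (((x * y : SL1 A B) : (Qt A B)ˣ) : Qt A B) = X * Y := by
        rw [Subgroup.coe_mul, Units.val_mul, hXx, hy]
      have e2 : X * Y = (((1 + algebraMap k L δ * l ^ 2) / d) * X.re + (2 * l / d) *
          algebraMap k L δ) • 1 + (((1 + algebraMap k L δ * l ^ 2) / d) + (2 * l / d) * X.re) •
            x0 := by
        rw [hY]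
        conv_lhs => rw [hXe]
        simp only [add_mul, mul_add, smul_mul_assoc, mul_smul_comm, one_mul, mul_one, hsq]
        module
      rw [e, e2, QuaternionAlgebra.re_add, QuaternionAlgebra.re_smul, QuaternionAlgebra.re_smul,
        hr0, hr]
      simp
      ring
    rw [h1] at ht
    have h2 : algebraMap k L (2 * r * δ + (t - 2) * δ) * l ^ 2 + algebraMap k L (4 * δ) * l +
        algebraMap k L (2 * r - (t - 2)) = 0 := by
      have h4 : algebraMap k L t * d = 2 * ((algebraMap k L r * (1 + algebraMap k L δ * l ^ 2) +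
          2 * l * algebraMap k L δ) + d) := by
        rw [ht]
        field_simp
      rw [hd] at h4
      simp only [map_add, map_mul, map_sub, map_ofNat]
      linear_combination -h4
    have h5 := (quad_indep h3 hl h2).2.1
    exact hδ0 ((mul_eq_zero.mp h5).resolve_left (by norm_num))
  · rw [hinv, hYre] at ht
    have h2 : algebraMap k L (2 * δ + (t - 2) * δ) * l ^ 2 + algebraMap k L 0 * l +
        algebraMap k L (2 - (t - 2)) = 0 := by
      have h4 : algebraMap k L t * d = 2 * ((1 + algebraMap k L δ * l ^ 2) + d) := by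
        rw [ht]
        field_simp
      rw [hd] at h4
      simp only [map_add, map_mul, map_sub, map_ofNat, map_zero, zero_mul]
      linear_combination -h4
    obtain ⟨h5, -, h6⟩ := quad_indep h3 hl h2
    have h7 : t = 4 := by linear_combination -h6
    rw [h7] at h5
    apply hδ0
    linear_combination (1 / 4 : k) * h5

theorem Cls.all (h3 : Module.finrank k L = 3) (hab : Aniso A B) {a : kˣ}
    {R : Set (HeightOneSpectrum (𝓞 L))}
    (ha : ∀ w ∈ R, up L a ∉ LS (w.valuation L)) {M : Subgroup (SL1 A B)}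
    (hM : GoodN (k := k) R M) {w : HeightOneSpectrum (𝓞 L)} (hw : Ram A B w) {g : L}
    (hg : g ≠ 0) (x : SL1 A B) : Cls M w g x := by
  have h1 : Cls M w g 1 := by
    refine ⟨1, one_mem _, ?_, fun w' _ _ => ?_⟩
    · rw [sub_self, nrd_zero', map_zero]
      exact zero_le
    · rw [OneMemClass.coe_one, Units.val_one, sub_self, nrd_zero', map_zero]
      exact zero_le
  have h2 : ∀ x : SL1 A B, ((x : (Qt A B)ˣ) : Qt A B) ≠ (((x : (Qt A B)ˣ) : Qt A B).re) • 1 →
      Cls M w g x := by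
    intro x hx
    obtain ⟨y, z, rfl, hy, hz⟩ := exists_gen h3 hab x hx
    refine Cls.mul hab hw (near_one h3 hab ha hM hw y hy hg) ?_
    rcases hz with hz | rfl
    · exact near_one h3 hab ha hM hw z hz hg
    · exact h1
  by_cases hx : ((x : (Qt A B)ˣ) : Qt A B) = (((x : (Qt A B)ˣ) : Qt A B).re) • 1
  swap
  · exact h2 x hx
  -- central elements
  obtain ⟨z, hz⟩ : ∃ z : SL1 A B,
      ((z : (Qt A B)ˣ) : Qt A B) ≠ (((z : (Qt A B)ˣ) : Qt A B).re) • 1 := by
    have hA1 : (1 : L) - A ≠ 0 := by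
      intro h
      have h4 := hab ⟨1, 1, 0, 0⟩ (by
        simp only [nrd]
        linear_combination h)
      exact one_ne_zero (congrArg QuaternionAlgebra.re h4)
    obtain ⟨z, hz⟩ := exists_SL1 (⟨(1 + A) / (1 - A), 2 / (1 - A), 0, 0⟩ : Qt A B) (by
      simp only [nrd]
      field_simp
      ring)
    refine ⟨z, fun h => ?_⟩
    have h4 := congrArg QuaternionAlgebra.imI h
    rw [hz] at h4
    simp at h4
    exact hA1 h4
  have hzi : ((z⁻¹ : SL1 A B) : (Qt A B)ˣ).val = star ((z : (Qt A B)ˣ) : Qt A B) :=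
    coe_inv_sl z
  have e : x = (x * z⁻¹) * z := by rw [inv_mul_cancel_right]
  rw [e]
  refine Cls.mul hab hw (h2 _ fun h => hz ?_) (h2 z hz)
  obtain ⟨Z, hZ⟩ : ∃ Z : Qt A B, Z = ((z : (Qt A B)ˣ) : Qt A B) := ⟨_, rfl⟩
  obtain ⟨X, hX⟩ : ∃ X : Qt A B, X = ((x : (Qt A B)ˣ) : Qt A B) := ⟨_, rfl⟩
  rw [← hX] at hx
  have hXn : nrd X = 1 := by rw [hX]; exact x.2
  have e2 : (((x * z⁻¹ : SL1 A B) : (Qt A B)ˣ) : Qt A B) = X.re • star Z := by
    rw [Subgroup.coe_mul, Units.val_mul, hzi, ← hX, ← hZ]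
    conv_lhs => rw [hx]
    rw [smul_mul_assoc, one_mul]
  have hX0 : X.re ≠ 0 := by
    intro h4
    rw [hx, h4, zero_smul] at hXn
    rw [nrd_zero'] at hXn
    exact zero_ne_one hXn
  rw [e2] at h
  rw [← hZ]
  have h5 : star Z = Z.re • 1 := by
    have h6 : X.re • star Z = X.re • (Z.re • (1 : Qt A B)) := by
      rw [h, QuaternionAlgebra.re_smul, QuaternionAlgebra.re_star, smul_smul]
      simp
    exact smul_right_injective _ hX0 h6
  have h6 := congrArg star h5
  rw [star_star, QuaternionAlgebra.star_smul, star_one] at h6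
  exact h6

/-- **Generation.** -/
theorem top_of_pairs (h3 : Module.finrank k L = 3) (hab : Aniso A B) {a : kˣ}
    {R : Set (HeightOneSpectrum (𝓞 L))}
    (ha : ∀ w ∈ R, up L a ∉ LS (w.valuation L)) {M : Subgroup (SL1 A B)} (hMn : M.Normal)
    (hi : M.index ≠ 0) (hM : GoodN (k := k) R M) : M = ⊤ := by
  classical
  obtain ⟨g, hg, -, hnear⟩ := near_mem hab M hMn hi
  rw [eq_top_iff]
  intro x _
  have hfin : {w | Ram A B w}.Finite := ram_finite A B
  have key : ∀ T : Finset (HeightOneSpectrum (𝓞 L)), (∀ w ∈ T, Ram A B w) →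
      ∃ m ∈ M, (∀ w ∈ T,
        w.valuation L (nrd (((m : (Qt A B)ˣ) : Qt A B) - ((x : (Qt A B)ˣ) : Qt A B))) ≤
          w.valuation L g ^ 2) ∧
        ∀ w, Ram A B w → w ∉ T →
          w.valuation L (nrd (((m : (Qt A B)ˣ) : Qt A B) - 1)) ≤ w.valuation L g ^ 2 := by
    intro T
    induction T using Finset.induction_on with
    | empty =>
      intro _
      refine ⟨1, one_mem _, fun w hw => absurd hw (Finset.notMem_empty w), fun w _ _ => ?_⟩
      rw [OneMemClass.coe_one, Units.val_one, sub_self, nrd_zero', map_zero]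
      exact zero_le
    | insert w T hwT ih =>
      intro hT
      obtain ⟨m, hm, h1, h2⟩ := ih fun w' hw' => hT w' (Finset.mem_insert_of_mem hw')
      have hw := hT w (Finset.mem_insert_self w T)
      obtain ⟨n, hn, h4, h5⟩ := Cls.all h3 hab ha hM hw hg x
      have hn1 : nrd ((n : (Qt A B)ˣ) : Qt A B) = 1 := n.2
      have hm1 : nrd ((m : (Qt A B)ˣ) : Qt A B) = 1 := m.2
      refine ⟨m * n, mul_mem hm hn, fun w' hw' => ?_, fun w' hr hw' => ?_⟩
      · rcases Finset.mem_insert.mp hw' with rfl | hw'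
        · have e : (((m * n : SL1 A B) : (Qt A B)ˣ) : Qt A B) - ((x : (Qt A B)ˣ) : Qt A B) =
              (((m : (Qt A B)ˣ) : Qt A B) - 1) * ((n : (Qt A B)ˣ) : Qt A B) +
                (((n : (Qt A B)ˣ) : Qt A B) - ((x : (Qt A B)ˣ) : Qt A B)) := by
            rw [Subgroup.coe_mul, Units.val_mul, sub_mul, one_mul]
            abel
          change qv hab hw _ ≤ _
          rw [e]
          refine Valuation.map_add_le _ ?_ h4
          rw [map_mul, qv_apply hab hw ((n : (Qt A B)ˣ) : Qt A B), hn1, map_one, mul_one]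
          exact h2 _ hw hwT
        · have hr := hT w' (Finset.mem_insert_of_mem hw')
          have hne : w' ≠ w := fun h => hwT (h ▸ hw')
          have e : (((m * n : SL1 A B) : (Qt A B)ˣ) : Qt A B) - ((x : (Qt A B)ˣ) : Qt A B) =
              ((m : (Qt A B)ˣ) : Qt A B) * (((n : (Qt A B)ˣ) : Qt A B) - 1) +
                (((m : (Qt A B)ˣ) : Qt A B) - ((x : (Qt A B)ˣ) : Qt A B)) := by
            rw [Subgroup.coe_mul, Units.val_mul, mul_sub, mul_one]
            abel
          change qv hab hr _ ≤ _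
          rw [e]
          refine Valuation.map_add_le _ ?_ (h1 w' hw')
          rw [map_mul, qv_apply hab hr ((m : (Qt A B)ˣ) : Qt A B), hm1, map_one, one_mul]
          exact h5 w' hr hne
      · have hne : w' ≠ w := fun h => hw' (h ▸ Finset.mem_insert_self _ T)
        have hwT' : w' ∉ T := fun h => hw' (Finset.mem_insert_of_mem h)
        have e : (((m * n : SL1 A B) : (Qt A B)ˣ) : Qt A B) - 1 =
            (((m : (Qt A B)ˣ) : Qt A B) - 1) * ((n : (Qt A B)ˣ) : Qt A B) +
              (((n : (Qt A B)ˣ) : Qt A B) - 1) := by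
          rw [Subgroup.coe_mul, Units.val_mul, sub_mul, one_mul]
          abel
        change qv hab hr _ ≤ _
        rw [e]
        refine Valuation.map_add_le _ ?_ (h5 w' hr hne)
        rw [map_mul, qv_apply hab hr ((n : (Qt A B)ˣ) : Qt A B), hn1, map_one, mul_one]
        exact h2 w' hr hwT'
  obtain ⟨m, hm, h1, -⟩ := key hfin.toFinset fun w hw => by simpa using hw
  refine hnear x m (fun w hw => ?_) hm
  have h2 := h1 w (by simpa using hw)
  have e : ((x : (Qt A B)ˣ) : Qt A B) - ((m : (Qt A B)ˣ) : Qt A B) =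
      -(((m : (Qt A B)ˣ) : Qt A B) - ((x : (Qt A B)ˣ) : Qt A B)) := by abel
  rw [e, TG.nrd_neg]
  exact h2

end main

end Vale.Agent.P011.D4W.H359
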